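import Vale.Agent.P218Y.Spec
import Vale.Agent.P218Y.Top
import Vale.Agent.P218Y.Dsw
import Vale.Agent.P218E.Dc

/-!
# P218U: almost regular flows; the measures `ν t` are given by the slices at regular times only
-/

open MeasureTheory Metric Filter Topology Set
open scoped ContDiff ENNReal RealInnerProductSpace
open Vale.Agent.P366W (Fr)
open Vale.Agent.P218 (limitSet WeakTendsto Slow IsIntegralBrakkeFlow rescaled)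
open Vale.Agent.P218.H552 (NN ext)
open Vale.Agent.P218R Vale.Agent.P218E Vale.Agent.P218Z
open Vale.Agent.P218Y (Yc Cen Lin)

noncomputable section

namespace Vale.Agent.P218U

/-- almost every time is regular, area ratios, Gauss-Bonnet bound at regular times -/
structure Uc (F : Flw) (ν : ℝ → Measure E3) (a b Λ G : ℝ) : Prop where
  cpt : ∀ c d, a < c → d < b → IsCompact {p : ℝ × E3 | p.1 ∈ Icc c d ∧ p.2 ∈ trk F p.1}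
  ae : ∀ᵐ t, t ∈ Ioo a b → RegT (trk F) t
  ok : ∀ t ∈ Ioo a b, RegT (trk F) t → (F.sl t).Ok ∧ (F.sl t).GBd G
  ar : ∀ t ∈ Ioo a b, AR Λ (ν t)
  eq : ∀ t ∈ Ioo a b, RegT (trk F) t → ν t = F.μ t
  car : ∀ t ∈ Ioo a b, ∀ᵐ x ∂ν t, x ∈ trk F t

/-- monotonicity across all times, and the lower density bound -/
structure Um (F : Flw) (ν : ℝ → Measure E3) (a b Λ G : ℝ) : Prop extends Uc F ν a b Λ G where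
  mono : ∀ (s₁ s₂ t₀ : ℝ) (x : E3), a < s₁ → s₁ ≤ s₂ → s₂ < b → s₂ < t₀ →
    gs (ν s₂) x √(t₀ - s₂) ≤ gs (ν s₁) x √(t₀ - s₁)
  ld : ∀ (s t : ℝ) (y : E3), a < t → t < s → s < b → F.u (s, y) = 0 → 1 ≤ gs (ν t) y √(s - t)

/-- the density gap at singular points -/
structure Uf (F : Flw) (ν : ℝ → Measure E3) (a b Λ G ε : ℝ) : Prop extends Um F ν a b Λ G where
  gap : ∀ (s t : ℝ) (y : E3), a < t → t < s → s < b → (s, y) ∈ Sing (trk F) →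
    1 + ε ≤ gs (ν t) y √(s - t)

variable {F : Flw} {ν : ℝ → Measure E3} {a b Λ G ε c d l t₀ τ s : ℝ} {x₀ y : E3}

theorem Uc.mono' (h : Uc F ν a b Λ G) (hc : a ≤ c) (hd : d ≤ b) : Uc F ν c d Λ G :=
  have s := Ioo_subset_Ioo hc hd
  ⟨fun c' d' h1 h2 => h.cpt c' d' (hc.trans_lt h1) (h2.trans_le hd),
    h.ae.mono fun _ h1 h2 => h1 (s h2), fun t ht => h.ok t (s ht), fun t ht => h.ar t (s ht),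
    fun t ht => h.eq t (s ht), fun t ht => h.car t (s ht)⟩

theorem Um.mono' (h : Um F ν a b Λ G) (hc : a ≤ c) (hd : d ≤ b) : Um F ν c d Λ G :=
  ⟨h.toUc.mono' hc hd, fun _ _ _ x h1 h2 h3 => h.mono _ _ _ x (hc.trans_lt h1) h2 (h3.trans_le hd),
    fun _ _ y h1 h2 h3 => h.ld _ _ y (hc.trans_lt h1) h2 (h3.trans_le hd)⟩

theorem Uf.mono' (h : Uf F ν a b Λ G ε) (hc : a ≤ c) (hd : d ≤ b) : Uf F ν c d Λ G ε :=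
  ⟨h.toUm.mono' hc hd, fun _ _ y h1 h2 h3 => h.gap _ _ y (hc.trans_lt h1) h2 (h3.trans_le hd)⟩

theorem Uc.arF (h : Uc F ν a b Λ G) {t : ℝ} (ht : t ∈ Ioo a b) (hr : RegT (trk F) t) :
    AR Λ (F.μ t) := h.eq t ht hr ▸ h.ar t ht

/-- around an interval of regular times the class is the old one -/
theorem Uc.yc (h : Uc F ν a b Λ G) (hc : a < c) (hcd : c ≤ d) (hd : d < b)
    (hr : ∀ t ∈ Icc c d, RegT (trk F) t) : ∃ c' d', c' < c ∧ d < d' ∧ Yc F c' d' Λ G := by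
  have m : ∀ t ∈ Icc c d, {t | t ∈ Ioo a b ∧ RegT (trk F) t} ∈ 𝓝 t := fun t ht =>
    (Tp.open_T h.cpt).mem_nhds ⟨⟨hc.trans_le ht.1, ht.2.trans_lt hd⟩, hr t ht⟩
  obtain ⟨l, u, h1, h2⟩ := mem_nhds_iff_exists_Ioo_subset.1 (m c ⟨le_rfl, hcd⟩)
  obtain ⟨l', u', h3, h4⟩ := mem_nhds_iff_exists_Ioo_subset.1 (m d ⟨hcd, le_rfl⟩)
  have k : ∀ t ∈ Ioo (max a l) (min b u'), t ∈ Ioo a b ∧ RegT (trk F) t := fun t ht => by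
    rw [mem_Ioo, max_lt_iff, lt_min_iff] at ht
    rcases lt_or_ge t c with p | p
    · exact h2 ⟨ht.1.2, p.trans h1.2⟩
    rcases le_or_gt t d with q | q
    · exact (mem_of_mem_nhds (m t ⟨p, q⟩) :)
    · exact h4 ⟨h3.1.trans q, ht.2.2⟩
  have g := h.mono' (le_max_left a l) (min_le_left b u')
  exact ⟨_, _, max_lt hc h1.1, lt_min hd h3.2, g.cpt, g.ae, g.ok, fun t ht => g.arF ht (k t ht).2⟩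

theorem gs_rs (hl : 0 < l) (s' : ℝ) : gs (rescaled 2 ν x₀ t₀ l s) y √(s' - s) =
    gs (ν (t₀ + s / l ^ 2)) (x₀ + l⁻¹ • y) √(t₀ + s' / l ^ 2 - (t₀ + s / l ^ 2)) := by
  rw [add_sub_add_left_eq_sub, ← sub_div, Real.sqrt_div' _ (sq_nonneg l), Real.sqrt_sq hl.le]
  exact gs_zm _ x₀ hl y _

theorem nn_zm (ν : ℝ → Measure E3) (x₀ : E3) (t₀ τ : ℝ) :
    NN 2 ν x₀ t₀ τ = zm (ν (t₀ - Real.exp (-2 * τ))) x₀ (Real.exp τ) := by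
  rw [← rs_time]; rfl

theorem nn_eq (h : ν (t₀ - Real.exp (-2 * τ)) = F.μ (t₀ - Real.exp (-2 * τ))) :
    NN 2 ν x₀ t₀ τ = (F.rsl x₀ t₀ τ).μ := by
  rw [rsl_mu, nn_zm, nn_zm, h]

theorem rs_ext (hs : s < 0) :
    rescaled 2 ν x₀ t₀ (Real.exp τ) s = ext 2 (NN 2 ν x₀ t₀ (τ - Real.log √(-s))) s := by
  rw [P218.H552.rescaled_eq 2 _ x₀ t₀ (Real.exp_pos _) hs]
  unfold P218.H552.ext NN
  rw [Real.exp_sub, Real.exp_log (Real.sqrt_pos.2 (by linarith))]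

/-! ### the rows -/

/-- **RSZ**: rescaling -/
def RSZ : Prop := ∀ (F : Flw) (ν : ℝ → Measure E3) (a b t₀ l Λ G : ℝ) (x₀ : E3), 0 < l →
  (Um F ν a b Λ G → Um (F.rs x₀ t₀ l) (rescaled 2 ν x₀ t₀ l) (l ^ 2 * (a - t₀)) (l ^ 2 * (b - t₀))
    Λ G) ∧ ∀ ε, Uf F ν a b Λ G ε →
    Uf (F.rs x₀ t₀ l) (rescaled 2 ν x₀ t₀ l) (l ^ 2 * (a - t₀)) (l ^ 2 * (b - t₀)) Λ G ε

/-- **HUZ**: good times -/
def HUZ : Prop := ∀ (F : Flw) (ν : ℝ → Measure E3) (a b Λ G s₁ s₂ D : ℝ) (n : ℕ)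
  (p : Fin n → ℝ × E3), Um F ν a b Λ G → a < s₁ → s₁ < s₂ → s₂ < b →
    (∀ j, s₂ < (p j).1 ∧ gs (ν s₁) (p j).2 √((p j).1 - s₁) -
      gs (ν s₂) (p j).2 √((p j).1 - s₂) ≤ D) → 0 < D →
    ∃ t ∈ Ioo s₁ s₂, RegT (trk F) t ∧
      ∀ j, dsh F (p j).2 (p j).1 t ≤ ENNReal.ofReal ((n + 1) * D / (s₂ - s₁))

/-- **DSW**: the same for the rescaled flow -/
def DSW : Prop := ∀ (F : Flw) (ν : ℝ → Measure E3) (a b Λ G t₀ τ₁ τ₂ : ℝ) (x₀ : E3),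
  Um F ν a b Λ G → τ₁ ≤ τ₂ → a < t₀ - Real.exp (-2 * τ₁) → t₀ ≤ b →
  gs (NN 2 ν x₀ t₀ τ₂) 0 1 ≤ gs (NN 2 ν x₀ t₀ τ₁) 0 1 ∧
  (∀ᵐ τ, τ₁ ≤ τ → RegS F t₀ τ) ∧
  (∀ τ, τ₁ ≤ τ → AR Λ (NN 2 ν x₀ t₀ τ) ∧ (RegS F t₀ τ → (F.rsl x₀ t₀ τ).Ok ∧
    (F.rsl x₀ t₀ τ).GBd G ∧ NN 2 ν x₀ t₀ τ = (F.rsl x₀ t₀ τ).μ)) ∧
  ∫⁻ τ in Icc τ₁ τ₂, dsw (F.rsl x₀ t₀ τ) ≤
    ENNReal.ofReal (2 * Real.pi * (gs (NN 2 ν x₀ t₀ τ₁) 0 1 - gs (NN 2 ν x₀ t₀ τ₂) 0 1))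

/-- **DSZ**: the dissipation in a ball -/
def DSZ : Prop := ∀ R : ℝ, ∃ C > (0 : ℝ), ∀ (F : Flw) (ν : ℝ → Measure E3)
  (a b Λ G t₀ τ₁ τ₂ : ℝ) (x₀ : E3), Um F ν a b Λ G → a < t₀ - Real.exp (-2 * τ₁) → t₀ ≤ b →
  τ₁ + 1 ≤ τ₂ → C * (gs (NN 2 ν x₀ t₀ τ₁) 0 1 - gs (NN 2 ν x₀ t₀ τ₂) 0 1) < 1 →
    ∃ τ ∈ Icc (τ₂ - 1) τ₂, RegS F t₀ τ ∧ dsb (F.rsl x₀ t₀ τ) R ≤ 1

/-- **SLZ**: self-similarity of the limits, good regular times -/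
def SLZ : Prop := ∀ (F : Flw) (ν : ℝ → Measure E3) (a b Λ G τ₀ : ℝ) (x₀ : E3) (τ : ℕ → ℝ)
  (κ : Measure E3), a < b → Um F ν a b Λ G → Slow (NN 2 ν x₀ b) τ₀ → IsLocallyFiniteMeasure κ →
  Tendsto τ atTop atTop → WeakTendsto (fun i => NN 2 ν x₀ b (τ i)) κ →
  (∀ s < 0, WeakTendsto (fun i => rescaled 2 ν x₀ b (Real.exp (τ i)) s) (ext 2 κ s)) ∧
  ∃ σ : ℕ → ℝ, (∀ i, σ i ∈ Icc (τ i) (τ i + 1)) ∧ (∀ᶠ i in atTop, RegS F b (σ i) ∧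
    (F.rsl x₀ b (σ i)).Ok ∧ AR Λ (F.rsl x₀ b (σ i)).μ ∧ (F.rsl x₀ b (σ i)).GBd G) ∧
    GSeq (fun i => F.rsl x₀ b (σ i)) (max Λ 1) κ ∧ WeakTendsto (fun i => NN 2 ν x₀ b (σ i)) κ

/-- **PTZ**: ancestors, and the use of two centres -/
def PTZ : Prop := ∀ Λ : ℝ, ∃ R ≥ (1 : ℝ),
  (∀ (F : Flw) (ν : ℝ → Measure E3) (a b G s t : ℝ) (y : E3), Um F ν a b Λ G → a < t → t < s →
    s < b → F.u (s, y) = 0 → ∃ z, F.u (t, z) = 0 ∧ ‖z - y‖ ≤ R * √(s - t)) ∧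
  ∀ K δ η : ℝ, 0 < δ → 0 < η → ∃ ε > (0 : ℝ), ∀ (F : Flw) (ν : ℝ → Measure E3)
    (a b G s s' t₀ ρ : ℝ) (y₁ y₂ y : E3),
    Um F ν a b Λ G → 0 < ρ → a < t₀ → t₀ ≤ s' - 2 * (δ * ρ) ^ 2 → s' ≤ s → s ≤ s' + (K * ρ) ^ 2 →
    s < b → F.u (s, y₁) = 0 → F.u (s, y₂) = 0 → F.u (s', y) = 0 → ‖y₁ - y‖ ≤ K * ρ →
    ‖y₂ - y‖ ≤ K * ρ → gs (ν t₀) y₁ √(s - t₀) ≤ 1 + ε → gs (ν t₀) y₂ √(s - t₀) ≤ 1 + ε →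
    ∃ t ∈ Ioo (s' - 2 * (δ * ρ) ^ 2) (s' - (δ * ρ) ^ 2), RegT (trk F) t ∧ ∃ z, F.u (t, z) = 0 ∧
      ‖z - y‖ ≤ 2 * R * δ * ρ ∧ |⟪y₁ - y₂, F.n (t, z)⟫| ≤ η * ρ

/-- **WHZ**: White's theorem for the class with the gap -/
def WHZ : Prop := ∀ Λ : ℝ, ∃ ε₁ > (0 : ℝ), ∀ σ > (0 : ℝ), ∃ c > (0 : ℝ), ∃ C : ℕ → ℝ,
  C 0 ≤ σ ∧ C 1 ≤ σ ∧ ∀ (F : Flw) (ν : ℝ → Measure E3) (a b G ε θ t r : ℝ) (x : E3),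
    Uf F ν a b Λ G ε → θ ≤ ε₁ → θ < ε → 0 < r → a < t - 4 * r ^ 2 → t ≤ b →
    (∀ y ∈ ball x (4 * r), ∀ ρ ∈ Icc r (2 * r), gs (ν (t - 4 * r ^ 2)) y ρ ≤ 1 + θ) →
    ∀ s ∈ Ioo (t - r ^ 2) t, RegT (trk F) s → ∀ y ∈ ball x r, F.u (s, y) = 0 →
      ∃ L, Fr (F.n (s, y)) L ∧ (F.sl s).Reg y (F.n (s, y)) L (c * r) C

/-- **LOZ**: White's theorem for the rescaled slices -/
def LOZ : Prop := ∀ Λ ε₀ : ℝ, 0 < ε₀ → ∃ ε > (0 : ℝ), ∀ σ > (0 : ℝ), ∃ C : ℕ → ℝ, C 0 ≤ σ ∧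
  C 1 ≤ σ ∧ ∀ (F : Flw) (ν : ℝ → Measure E3) (a b G τ₀ : ℝ) (x₀ p : E3) (τ : ℕ → ℝ)
    (κ : Measure E3), a < b → Uf F ν a b Λ G ε₀ → Slow (NN 2 ν x₀ b) τ₀ →
    IsLocallyFiniteMeasure κ → Tendsto τ atTop atTop → WeakTendsto (fun i => NN 2 ν x₀ b (τ i)) κ →
    (∃ᶠ ρ in 𝓝[>] (0 : ℝ), gs κ p ρ ≤ 1 + ε) → ∃ δ > (0 : ℝ), ∃ r > (0 : ℝ), ∀ᶠ i in atTop,
      RegS F b (τ i) → ∀ y ∈ ball p δ, (F.rsl x₀ b (τ i)).w y = 0 →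
        ∃ L, Fr ((F.rsl x₀ b (τ i)).n y) L ∧
          (F.rsl x₀ b (τ i)).Reg y ((F.rsl x₀ b (τ i)).n y) L r C

/-- **GAP**: the density gap -/
def GAP : Prop := ∀ Λ : ℝ, ∃ ε > (0 : ℝ), ∀ (ν : ℝ → Measure E3) (F : Flw) (a b G s t : ℝ)
  (x : E3) (T : ℝ → E3 → Submodule ℝ E3) (H : ℝ → E3 → E3), P218.H552.BF 2 ν T H →
  ν 0 univ < ⊤ → 0 ≤ a → Um F ν a b Λ G → a < s → s < t → t < b → F.u (t, x) = 0 →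
  gs (ν s) x √(t - s) < 1 + ε → Tendsto (fun r => gs (ν (t - r ^ 2)) x r) (𝓝[>] 0) (𝓝 1)

/-- the Gaussian density at the space-time point `p` -/
def Th (ν : ℝ → Measure E3) (a : ℝ) (p : ℝ × E3) : ℝ :=
  sInf ((fun s => gs (ν s) p.2 √(p.1 - s)) '' Ioo a p.1)

/-- all tangent flows at `p` are smooth shrinkers of multiplicity one -/
def Gd (ν : ℝ → Measure E3) (Λ G : ℝ) (p : ℝ × E3) : Prop :=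
  ∀ κ ∈ limitSet (NN 2 ν p.2 p.1), ∃ S, Shr S Λ G ∧ κ = S.μ

/-- **DNY**: multiplicity one everywhere, if the density is below two -/
def DNY : Prop := ∀ (F : Flw) (ν : ℝ → Measure E3) (a b Λ G τ₀ : ℝ) (x₀ : E3) (κ : Measure E3),
  Um F ν a b Λ G → Slow (NN 2 ν x₀ b) τ₀ → κ ∈ limitSet (NN 2 ν x₀ b) →
  (∃ s ∈ Ioo a b, gs (ν s) x₀ √(b - s) < 2) →
  ∀ p, ∀ ε > 0, ∃ᶠ ρ in 𝓝[>] (0 : ℝ), gs κ p ρ ≤ 1 + ε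

/-- **TFY**: multiplicity one everywhere gives a smooth tangent flow -/
def TFY : Prop := ∀ (F : Flw) (ν : ℝ → Measure E3) (a b Λ G ε₀ τ₀ : ℝ) (x₀ : E3) (κ : Measure E3),
  a < b → 0 < ε₀ → Uf F ν a b Λ G ε₀ → Slow (NN 2 ν x₀ b) τ₀ → κ ∈ limitSet (NN 2 ν x₀ b) →
  (∀ p, ∀ ε > 0, ∃ᶠ ρ in 𝓝[>] (0 : ℝ), gs κ p ρ ≤ 1 + ε) → ∃ S, Shr S Λ G ∧ κ = S.μ

/-- **LCS**: the spine at small scales -/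
def LCS : Prop := ∀ Λ G ε₀ η : ℝ, 0 < ε₀ → 0 < η → ∃ δ > (0 : ℝ), ∀ (F : Flw) (ν : ℝ → Measure E3)
  (a b τ₀ : ℝ) (p : ℝ × E3), Uf F ν a b Λ G ε₀ → p.1 ∈ Ioo a b → p ∈ Sing (trk F) →
  Slow (NN 2 ν p.2 p.1) τ₀ → Gd ν Λ G p → Lin (Th ν a) η δ p

end Vale.Agent.P218U
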