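import Vale.Agent.P218Y.Spn
import Vale.Agent.P218U.Defs

/-!
# P218U: the density, blowing up, the spine at small scales
-/

open MeasureTheory Metric Filter Topology Set
open scoped ContDiff ENNReal RealInnerProductSpace NNReal
open Vale.Agent.P218 (limitSet WeakTendsto Slow rescaled)
open Vale.Agent.P218.H552 (NN ext)
open Vale.Agent.P218R Vale.Agent.P218E Vale.Agent.P218Z
open Vale.Agent.P218Y (Cen Lin SPN gs_lim3 sub2)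

noncomputable section

namespace Vale.Agent.P218U

variable {F : Flw} {ν : ℝ → Measure E3} {a b Λ G : ℝ}

theorem thb (hF : Um F ν a b Λ G) :
    (∀ p : ℝ × E3, ∀ s ∈ Ioo a p.1, Th ν a p ≤ gs (ν s) p.2 √(p.1 - s)) ∧
    (∀ p : ℝ × E3, p.1 ∈ Ioo a b → ∀ c, Th ν a p < c →
      (∀ᶠ s in 𝓝[<] p.1, gs (ν s) p.2 √(p.1 - s) < c) ∧ ∀ᶠ q in 𝓝 p, Th ν a q < c) ∧
    (∃ C, ∀ p : ℝ × E3, p.1 ∈ Ioo a b → 0 ≤ Th ν a p ∧ Th ν a p ≤ C) ∧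
    ∀ (p : ℝ × E3) (c : ℝ), a < p.1 → (∀ s ∈ Ioo a p.1, c ≤ gs (ν s) p.2 √(p.1 - s)) →
      c ≤ Th ν a p := by
  have bd : ∀ p : ℝ × E3, BddBelow ((fun s => gs (ν s) p.2 √(p.1 - s)) '' Ioo a p.1) := fun p =>
    ⟨0, by rintro _ ⟨s, -, rfl⟩; exact gs_nonneg _ _ _⟩
  have t1 : ∀ p : ℝ × E3, ∀ s ∈ Ioo a p.1, Th ν a p ≤ gs (ν s) p.2 √(p.1 - s) := fun p s hs =>
    csInf_le (bd p) ⟨s, hs, rfl⟩
  have t4 : ∀ (p : ℝ × E3) (c : ℝ), a < p.1 → (∀ s ∈ Ioo a p.1, c ≤ gs (ν s) p.2 √(p.1 - s)) →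
      c ≤ Th ν a p := fun p c hp h =>
    le_csInf ((nonempty_Ioo.2 hp).image _) (by rintro _ ⟨s, hs, rfl⟩; exact h s hs)
  obtain ⟨⟨C, C0, g⟩, -⟩ := gsl
  refine ⟨t1, fun p hp c hc => ?_, ⟨C * max Λ 0, fun p hp =>
    ⟨t4 p 0 hp.1 fun _ _ => gs_nonneg _ _ _, ?_⟩⟩, t4⟩
  · obtain ⟨_, ⟨s, hs, rfl⟩, h⟩ := exists_lt_of_csInf_lt ((nonempty_Ioo.2 hp.1).image _) hc
    have k : ContinuousAt (fun q : ℝ × E3 => gs (ν s) q.2 √(q.1 - s)) p :=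
      ContinuousAt.comp (g := fun q : E3 × ℝ => gs (ν s) q.1 q.2)
        (f := fun q : ℝ × E3 => (q.2, √(q.1 - s))) (Fl.gs_cont2 (le_max_right Λ 0)
          (Gs.ar_max (hF.ar s ⟨hs.1, hs.2.trans hp.2⟩)) p.2 (Real.sqrt_pos.2 (sub_pos.2 hs.2)))
        (by fun_prop)
    constructor
    · filter_upwards [Ioo_mem_nhdsLT hs.2] with s' h'
      exact (hF.mono s s' p.1 p.2 hs.1 h'.1.le (h'.2.trans hp.2) h'.2).trans_lt h
    · filter_upwards [k.eventually_lt_const h, (continuous_fst.tendsto p).eventually_const_lt hs.2]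
        with q h1 h2
      exact (t1 q s ⟨hs.1, h2⟩).trans_lt h1
  · obtain ⟨s, hs⟩ := nonempty_Ioo.2 hp.1
    exact (t1 p s hs).trans (g _ _ (le_max_right Λ 0) (Gs.ar_max (hF.ar s ⟨hs.1, hs.2.trans hp.2⟩))
      _ _ (Real.sqrt_pos.2 (sub_pos.2 hs.2))).2.1

theorem blw (slz0 : SLZ) {τ₀ t : ℝ} {x : E3} {r : ℕ → ℝ} (hF : Um F ν a b Λ G) (ht : t ∈ Ioo a b)
    (hs : Slow (NN 2 ν x t) τ₀) (r0 : ∀ i, 0 < r i) (hr : Tendsto r atTop (𝓝 0)) :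
    ∃ (ψ : ℕ → ℕ) (κ : Measure E3), StrictMono ψ ∧ κ ∈ limitSet (NN 2 ν x t) ∧
      gs κ 0 1 = Th ν a (t, x) ∧ ∀ (φ : ℕ → ℕ) (θ : ℕ → ℝ) (z : ℕ → E3) (θ' c : ℝ) (z' : E3),
        Tendsto φ atTop atTop → Tendsto θ atTop (𝓝 θ') → Tendsto z atTop (𝓝 z') →
        (∀ i, c ≤ Th ν a (t + θ i * r (ψ (φ i)) ^ 2, x + r (ψ (φ i)) • z i)) → Cen κ θ' z' c := by
  obtain ⟨t1, t2, -, -⟩ := thb hF
  have hτ : Tendsto (fun i => -Real.log (r i)) atTop atTop := tendsto_neg_atBot_atTop.comp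
    (Real.tendsto_log_nhdsGT_zero.comp (tendsto_nhdsWithin_iff.2 ⟨hr, .of_forall r0⟩))
  obtain ⟨κ, ψ, hκ, hψ, hw⟩ := hs.exists_subseq hτ
  have hτ' := hτ.comp hψ.tendsto_atTop
  have hr' := hr.comp hψ.tendsto_atTop
  have hY := hF.mono' le_rfl ht.2.le
  have conv := (slz0 F ν a t Λ G τ₀ x _ κ ht.1 hY hs hκ hτ' hw).1
  have e : ∀ i, Real.exp (-Real.log (r i)) = (r i)⁻¹ := fun i => by
    rw [Real.exp_neg, Real.exp_log (r0 i)]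
  simp only [Function.comp, e] at conv
  have tm : ∀ s, Tendsto (fun i => t + s / (r (ψ i))⁻¹ ^ 2) atTop (𝓝 t) := fun s => by
    simpa using ((hr'.pow 2).const_mul s).const_add t
  have neg : ∀ s < 0, ∀ i, t + s / (r (ψ i))⁻¹ ^ 2 < t := fun s hs i =>
    add_lt_of_neg_right _ (div_neg_of_neg_of_pos hs (pow_pos (inv_pos.2 (r0 _)) 2))
  have ar : ∀ s < 0, ∀ᶠ i in atTop, AR Λ (rescaled 2 ν x t (r (ψ i))⁻¹ s) := fun s hs =>
    ((tm s).eventually_const_lt ht.1).mono fun i hi =>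
      zm_ar (hY.ar _ ⟨hi, neg s hs i⟩) x (inv_pos.2 (r0 _))
  refine ⟨ψ, κ, hψ, ⟨hκ, _, hτ', hw⟩, ?_, fun φ θ z θ' c z' hφ hθ hz hc s s0 s1 => ?_⟩
  · have h1 := gs_lim3 (P218.H552.locFin_ext 2 κ neg_one_lt_zero) (ar _ neg_one_lt_zero)
      (conv _ neg_one_lt_zero) (z := fun _ => 0) (ρ := fun _ => √(0 - -1)) tendsto_const_nhds
      tendsto_const_nhds (by simp)
    have h2 := Loc.gs_ext κ (ρ := 1) neg_one_lt_zero 0
    simp only [neg_neg, Real.sqrt_one, smul_zero, mul_one] at h2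
    simp only [fun i => gs_rs (ν := ν) (x₀ := x) (y := 0) (t₀ := t) (s := -1)
      (inv_pos.2 (r0 (ψ i))) 0, smul_zero, add_zero, zero_div] at h1
    rw [show √(0 - -1) = (1 : ℝ) by simp, h2] at h1
    refine le_antisymm (le_of_forall_gt_imp_ge_of_dense fun c hc => le_of_tendsto h1 ?_)
      (ge_of_tendsto h1 (((tm _).eventually_const_lt ht.1).mono fun i hi =>
        t1 (t, x) _ ⟨hi, neg _ neg_one_lt_zero i⟩))
    exact ((tendsto_nhdsWithin_iff.2 ⟨tm _, .of_forall (neg _ neg_one_lt_zero)⟩).eventually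
      (t2 (t, x) ht c hc).1).mono fun i hi => hi.le
  · refine ge_of_tendsto (gs_lim3 (P218.H552.locFin_ext 2 κ s0) (hφ.eventually (ar s s0))
      (fun f h1 h2 => (conv s s0 f h1 h2).comp hφ) hz ((hθ.sub_const s).sqrt)
      (Real.sqrt_pos.2 (sub_pos.2 s1))) ?_
    filter_upwards [hθ.eventually_const_lt s1, hφ.eventually ((tm s).eventually_const_lt ht.1)]
      with i h1 h2
    rw [gs_rs (inv_pos.2 (r0 _))]
    have h3 := t1 (t + θ i / (r (ψ (φ i)))⁻¹ ^ 2, x + (r (ψ (φ i)))⁻¹⁻¹ • z i) _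
      ⟨h2, P218Z.Rsz.lt (inv_pos.2 (r0 _)) h1⟩
    refine le_trans ?_ h3
    simpa using hc i

theorem lcs (spn : SPN) (slz0 : SLZ) : LCS := by
  intro Λ G ε₀ η h0 hη
  obtain ⟨δ, d0, h⟩ := spn Λ G ε₀ η h0 hη
  refine ⟨δ, d0, fun F ν a b τ₀ ⟨t, x⟩ hF ht hp hs hg => ?_⟩
  by_contra hc
  simp only [Lin, not_exists, not_and, not_forall, exists_prop] at hc
  choose r hr hc using fun j : ℕ => hc (1 / ((j : ℝ) + 1)) Nat.one_div_pos_of_nat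
  obtain ⟨ψ, κ, -, hκ, e1, hb⟩ := blw slz0 hF.toUm ht hs (fun i => (hr i).1)
    (squeeze_zero (fun i => (hr i).1.le) (fun i => (hr i).2.le)
      tendsto_one_div_add_atTop_nhds_zero_nat)
  obtain ⟨S, hS, rfl⟩ := hg κ hκ
  obtain ⟨e, e2, he⟩ := h S hS (e1 ▸ (thb hF.toUm).2.2.2 _ _ ht.1 fun s hs =>
    hF.gap t s x hs.1 hs.2 ht.2 hp)
  choose q a1 a2 a3 a4 using fun i => hc (ψ i) e e2
  have r0 := fun i => (hr (ψ i)).1
  have n1 : ∀ i, |((q i).1 - t) / r (ψ i) ^ 2| = |(q i).1 - t| / r (ψ i) ^ 2 := fun i => by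
    rw [abs_div, abs_of_pos (pow_pos (r0 i) 2)]
  have n2 : ∀ i (v : E3), ‖(r (ψ i))⁻¹ • v‖ = ‖v‖ / r (ψ i) := fun i v => by
    rw [norm_smul, Real.norm_of_nonneg (inv_pos.2 (r0 i)).le, div_eq_inv_mul]
  obtain ⟨θ', z', φ, c1, c2, hφ, t1, t2⟩ := sub2 (θ := fun i => ((q i).1 - t) / r (ψ i) ^ 2)
    (z := fun i => (r (ψ i))⁻¹ • ((q i).2 - x))
    (fun i => by rw [n1, div_le_one (pow_pos (r0 i) 2)]; exact a1 i)
    fun i => by rw [n2, div_le_one (r0 i)]; exact a2 i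
  obtain ⟨b1, ⟨c, b2⟩, b3⟩ := he θ' z' c1 c2 (hb φ _ _ θ' _ z' hφ.tendsto_atTop t1 t2 fun i => by
    rw [div_mul_cancel₀ _ (pow_pos (r0 _) 2).ne', smul_inv_smul₀ (r0 _).ne', add_sub_cancel,
      add_sub_cancel, e1]
    exact a3 _)
  have b4 : ∀ᶠ i in atTop, 2 ≤ Th ν a (t, x) → ‖(r (ψ (φ i)))⁻¹ • ((q (φ i)).2 - x)‖ < η := by
    by_cases h2 : 2 ≤ Th ν a (t, x)
    · exact (t2.norm.eventually_lt_const (b3 (e1 ▸ h2))).mono fun _ h _ => h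
    · exact .of_forall fun _ h => absurd h h2
  obtain ⟨i, i1, i2, i3⟩ := ((t1.abs.eventually_lt_const b1).and
    (((t2.sub_const (c • e)).norm.eventually_lt_const b2).and b4)).exists
  rw [n1, div_lt_iff₀ (pow_pos (r0 _) 2), ← mul_pow] at i1
  simp only [n2, div_lt_iff₀ (r0 _)] at i3
  obtain ⟨j1, j2⟩ := a4 (φ i) i1 ⟨r (ψ (φ i)) * c, by
    rw [← div_lt_iff₀ (r0 _), ← n2, smul_sub, smul_smul, inv_mul_cancel_left₀ (r0 _).ne']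
    exact i2⟩
  exact j2 (i3 j1)

end Vale.Agent.P218U
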