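import Vale.Agent.P218Y.Dny
import Vale.Agent.P218U.Defs

/-!
# P218U: multiplicity one everywhere, if the density is below two
-/

open MeasureTheory Metric Filter Topology Set
open scoped ContDiff ENNReal RealInnerProductSpace NNReal
open Vale.Agent.P218 (limitSet WeakTendsto Slow rescaled)
open Vale.Agent.P218Y (NP DPS dsb_int)
open Vale.Agent.P218.H552 (NN)
open Vale.Agent.P218R Vale.Agent.P218E Vale.Agent.P218Z

noncomputable section

namespace Vale.Agent.P218U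

theorem ent {F : Flw} {ν : ℝ → Measure E3} {a b Λ G s : ℝ} {x₀ : E3} (hF : Um F ν a b Λ G)
    (hs : s ∈ Ioo a b) (h : gs (ν s) x₀ √(b - s) < 2) : ∃ η > (0 : ℝ), ∀ R : ℝ, ∀ᶠ σ in atTop,
      ∀ y ∈ ball (0 : E3) R, ∀ ρ ∈ Ioc (0 : ℝ) 1, gs (NN 2 ν x₀ b σ) y ρ ≤ 2 - η := by
  obtain ⟨c, c1, c2⟩ := exists_between h
  refine ⟨2 - c, sub_pos.2 c2, fun R => ?_⟩
  have k : ContinuousAt (fun p : ℝ × E3 => gs (ν s) p.2 √(p.1 - s)) (b, x₀) :=
    ContinuousAt.comp (g := fun p : E3 × ℝ => gs (ν s) p.1 p.2)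
      (f := fun p : ℝ × E3 => (p.2, √(p.1 - s))) (Fl.gs_cont2 (le_max_right Λ 0)
        (Gs.ar_max (hF.ar s hs)) x₀ (Real.sqrt_pos.2 (sub_pos.2 hs.2))) (by fun_prop)
  obtain ⟨β, β0, hβ⟩ := Metric.eventually_nhds_iff.1 (k.eventually_lt_const c1)
  have t1 : Tendsto (fun σ => Real.exp (-2 * σ)) atTop (𝓝 0) :=
    Real.tendsto_exp_atBot.comp (tendsto_id.const_mul_atTop_of_neg (by norm_num))
  have t2 : Tendsto (fun σ => (Real.exp σ)⁻¹ * R) atTop (𝓝 0) := by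
    simpa using Real.tendsto_exp_atTop.inv_tendsto_atTop.mul_const R
  filter_upwards [t1.eventually_lt_const β0, t1.eventually_lt_const (sub_pos.2 hs.2),
    t2.eventually_lt_const β0] with σ h1 h2 h3 y hy ρ hρ
  have e0 := Real.exp_pos σ
  have e1 := Real.exp_pos (-2 * σ)
  have r0 := div_pos hρ.1 e0
  have e2 : (ρ / Real.exp σ) ^ 2 ≤ Real.exp (-2 * σ) := by
    rw [div_pow, ← Real.exp_nat_mul, neg_mul, Real.exp_neg, div_eq_mul_inv]
    exact mul_le_of_le_one_left (by positivity) (pow_le_one₀ hρ.1.le hρ.2)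
  have := hF.mono s (b - Real.exp (-2 * σ)) (b - Real.exp (-2 * σ) + (ρ / Real.exp σ) ^ 2)
    (x₀ + (Real.exp σ)⁻¹ • y) hs.1 (by linarith) (by linarith) (by nlinarith)
  rw [add_sub_cancel_left, Real.sqrt_sq r0.le] at this
  rw [nn_zm, gs_zm _ _ e0, sub_sub_cancel]
  refine this.trans (hβ (y := (_, _)) ?_).le
  rw [Prod.dist_eq, max_lt_iff, Real.dist_eq, abs_lt, dist_eq_norm, add_sub_cancel_left, norm_smul,
    Real.norm_of_nonneg (by positivity)]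
  exact ⟨⟨by nlinarith, by linarith⟩, (mul_le_mul_of_nonneg_left
    (mem_ball_zero_iff.1 hy).le (by positivity)).trans_lt h3⟩

theorem zm_zm (κ : Measure E3) (x p : E3) {l m : ℝ} (hl : 0 < l) (hm : 0 < m) :
    zm (zm κ x l) p m = zm κ (x + l⁻¹ • p) (l * m) := by
  ext s -
  rw [zm_apply _ _ hm, zm_apply _ _ hl, zm_apply _ _ (mul_pos hl hm), ← mul_assoc,
    ← ENNReal.ofReal_mul (sq_nonneg _), ← preimage_comp, mul_pow, mul_comm (l ^ 2)]
  congr 3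
  ext1 y
  simp only [Function.comp, ← sub_sub, smul_sub, smul_smul, mul_comm l m, mul_assoc,
    mul_inv_cancel₀ hl.ne', mul_one]

theorem nn_rs (ν : ℝ → Measure E3) (x₀ p : E3) (b τ t : ℝ) :
    NN 2 (rescaled 2 ν x₀ b (Real.exp τ)) p (-1) t =
      zm (NN 2 ν x₀ b (τ - Real.log (bt t))) ((bt t)⁻¹ • p) (bt t * Real.exp t) := by
  have hb := bt_pos t
  have e0 : Real.exp (-2 * t) = (Real.exp t ^ 2)⁻¹ := by
    rw [← Real.exp_nat_mul, ← Real.exp_neg]; norm_num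
  have e1 : b + (-1 + -1 / Real.exp t ^ 2) / Real.exp τ ^ 2 =
      b + -1 / Real.exp (τ - Real.log (bt t)) ^ 2 := by
    rw [Real.exp_sub, Real.exp_log hb, div_pow, bt_sq, e0]
    field_simp
    ring
  change zm (zm (ν (b + (-1 + -1 / Real.exp t ^ 2) / Real.exp τ ^ 2)) x₀ _) p _ =
    zm (zm (ν (b + -1 / Real.exp (τ - Real.log (bt t)) ^ 2)) x₀ _) _ _
  rw [e1, zm_zm _ _ _ (Real.exp_pos _) (Real.exp_pos _),
    zm_zm _ _ _ (Real.exp_pos _) (mul_pos hb (Real.exp_pos _)), Real.exp_sub, Real.exp_log hb,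
    smul_smul]
  congr 1
  · congr 2
    field_simp
  · field_simp

theorem dny (np : NP) (dps : DPS) (hR : RSZ) (hW : DSW) (dsz0 : DSZ) (slz0 : SLZ) : DNY := by
  intro F ν a b Λ G τ₀ x₀ κ hF hsl hκ ⟨s₀, hs₀, h2⟩ p ε hε
  have hab := hs₀.1.trans hs₀.2
  by_contra hcon
  have hp : p ∈ Hi κ ε := (not_frequently.1 hcon).mono fun ρ h => not_le.1 h
  obtain ⟨hlf, τ, hτ, hw⟩ := id hκ
  obtain ⟨-, σ, hσ, -, hG, -⟩ := slz0 F ν a b Λ G τ₀ x₀ τ κ hab hF hsl hlf hτ hw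
  obtain ⟨-, -, hN3, -, -⟩ := nop
  obtain ⟨η, η0, hη⟩ := ent hF hs₀ h2
  obtain ⟨R', hR', m', hm', e₀, he₀, J, hP⟩ := dps Λ (ε / 2) (1 / 8) 1 (by positivity) (by norm_num)
  obtain ⟨e₁, he₁, np⟩ := np Λ (G * (1 + (2 + max Λ 0 * (20 * (R' + 2)) ^ 2 *
    ((20 * (R' + 2)) ^ 2 / 2)))) R' η m' η0 hm'
  obtain ⟨Cd, hCd, hD⟩ := dsz0 (20 * (R' + 2) + 1)
  obtain ⟨σ₀, hσ₀⟩ := eventually_atTop.1 (hη (‖p‖ + R'))
  -- shifted sequences
  have shift : ∀ (φ : ℕ → ℕ) (t : ℕ → ℝ) (t' : ℝ), Tendsto φ atTop atTop → Tendsto t atTop (𝓝 t') →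
      Tendsto (fun i => τ (φ i) - Real.log (bt (t i))) atTop atTop ∧
      WeakTendsto (fun i => NN 2 ν x₀ b (τ (φ i) - Real.log (bt (t i)))) κ := by
    intro φ t t' hφ ht
    have h1 : Tendsto (fun i => Real.log (bt (t i))) atTop (𝓝 (Real.log (bt t'))) :=
      ((cont_bt.tendsto t').comp ht).log (bt_pos t').ne'
    refine ⟨(hτ.comp hφ).atTop_add h1.neg, hsl.weakTendsto_shift (hτ.comp hφ)
      (h := |Real.log (bt t')| + 1) (by positivity) ?_ fun f hf hfc => (hw f hf hfc).comp hφ⟩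
    filter_upwards [h1.abs.eventually_lt_const (lt_add_one _)] with i hi
    simpa using hi.le
  have okA : ∀ s : ℕ → ℝ, Tendsto s atTop atTop → ∀ᶠ i in atTop, AR Λ (NN 2 ν x₀ b (s i)) :=
    fun s hs => (ev_time hab hs).mono fun i hi =>
      ((hW F ν a b Λ G b _ _ x₀ hF le_rfl hi le_rfl).2.2.1 _ le_rfl).1
  set N : ℕ → ℝ → Measure E3 := fun i t =>
    NN 2 (rescaled 2 ν x₀ b (Real.exp (τ i))) p (-1) t with hN
  have lpos : ∀ t, 0 < bt t * Real.exp t := fun t => mul_pos (bt_pos t) (Real.exp_pos t)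
  have conv : ∀ (φ : ℕ → ℕ) (t : ℕ → ℝ) (t' : ℝ), Tendsto φ atTop atTop → Tendsto t atTop (𝓝 t') →
      (∀ᶠ i in atTop, AR Λ (N (φ i) (t i))) ∧ WeakTendsto (fun i => (N (φ i) (t i)))
        (zm κ ((bt t')⁻¹ • p) (bt t' * Real.exp t')) := by
    intro φ t t' hφ ht
    obtain ⟨h1, h2⟩ := shift φ t t' hφ ht
    have h3 := okA _ h1
    have h4 := (cont_bt.tendsto t').comp ht
    simp only [hN, nn_rs]
    exact ⟨h3.mono fun i hi => zm_ar hi _ (lpos _), zm_weak h3 h2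
      ((h4.inv₀ (bt_pos t').ne').smul_const p)
      (h4.mul ((Real.continuous_exp.tendsto t').comp ht)) (lpos _)⟩
  have hκA : AR Λ κ := Gs.ar_lim (okA τ hτ) hw
  set g : ℝ → ℝ := fun t => gs (zm κ ((bt t)⁻¹ • p) (bt t * Real.exp t)) 0 1 with hg
  have glim : ∀ t, Tendsto (fun i => gs (N i t) 0 1) atTop (𝓝 (g t)) := fun t => by
    have := (zm_ar hκA ((bt t)⁻¹ • p) (lpos t)).fin
    obtain ⟨h1, h2⟩ := conv id (fun _ => t) t tendsto_id tendsto_const_nhds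
    exact Gs.gs_lim h1 h2 0 one_pos
  have good : ∀ i, Um (F.rs x₀ b (Real.exp (τ i))) (rescaled 2 ν x₀ b (Real.exp (τ i)))
      (Real.exp (τ i) ^ 2 * (a - b)) (Real.exp (τ i) ^ 2 * (b - b)) Λ G := fun i =>
    (hR F ν a b b _ Λ G x₀ (Real.exp_pos _)).1 hF
  have early : ∀ t, ∀ᶠ i in atTop, Real.exp (τ i) ^ 2 * (a - b) < -1 - Real.exp (-2 * t) :=
    fun t => (((tendsto_pow_atTop two_ne_zero).comp (Real.tendsto_exp_atTop.comp hτ)
      ).atTop_mul_const_of_neg (sub_neg.2 hab)).eventually_lt_atBot _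
  have late : ∀ i, (-1 : ℝ) ≤ Real.exp (τ i) ^ 2 * (b - b) := fun i => by simp
  obtain ⟨t₀, ht₀⟩ := anti_small (g := g) (fun t => gs_nonneg _ _ _)
    (δ := 1 / Cd) (by positivity)
  obtain ⟨t₁, h01, h02⟩ : ∃ t₁, t₀ ≤ t₁ ∧ 0 ≤ t₁ := ⟨max t₀ 0, le_max_left _ _, le_max_right _ _⟩
  have ht₁ : ∀ t, g t₁ - g t < 1 / Cd := fun t => by
    have : g t₁ ≤ g t₀ := le_of_tendsto_of_tendsto (glim t₁) (glim t₀) ((early t₀).mono fun i hi =>
      (hW _ _ _ _ Λ G (-1) t₀ t₁ p (good i) h01 hi (late i)).1)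
    linarith [ht₀ t]
  set e' := min e₀ e₁ with he'
  have he'0 : 0 < e' := lt_min he₀ he₁
  have hMany : ∀ᶠ t in atTop, ∀ j ∈ Iic J, ManyS (zm κ ((bt t)⁻¹ • p) (bt t * Real.exp t)) 1
      (ε / 2) (1 / 8) (e' / 10 / 2 ^ j) := (eventually_all_finite (finite_Iic J)).2 fun j _ =>
    (ball0 _ _ ε κ p hG hε hp).2 _ _ tendsto_l (tendsto_q p) _ (by positivity)
  obtain ⟨T₀, hT₀⟩ := eventually_atTop.1 hMany
  set t₂ := max T₀ t₁ + 1 with ht₂
  have h12 : t₁ + 1 ≤ t₂ := by linarith [le_max_right T₀ t₁]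
  have hdrop : ∀ᶠ i in atTop, Cd * (gs (N i t₁) 0 1 - gs (N i t₂) 0 1) < 1 :=
    (((glim t₁).sub (glim t₂)).const_mul Cd).eventually_lt_const
      (by rw [← lt_div_iff₀' hCd]; exact ht₁ t₂)
  have hbad : ∀ᶠ i in atTop, ∃ t ∈ Icc (t₂ - 1) t₂, ∃ j ≤ J,
      ¬ Many (N i t) 1 (ε / 2) (1 / 8) (e' / 10 / 2 ^ j) := by
    filter_upwards [hdrop, early t₁, hτ.eventually_ge_atTop (σ₀ + 1)] with i h1 h3 h7
    obtain ⟨t, ht, h8, h4⟩ := hD _ _ _ _ Λ G (-1) t₁ t₂ p (good i) h3 (late i) h12 h1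
    have h5 : t₁ ≤ t := by linarith [ht.1]
    obtain ⟨ar, ok⟩ := (hW _ _ _ _ Λ G (-1) t₁ t₁ p (good i) le_rfl h3 (late i)).2.2.1 t h5
    obtain ⟨ok, gb, e9⟩ := ok h8
    rw [e9] at ar
    refine ⟨t, ht, ?_⟩
    simp only [hN, e9]
    refine hP _ e' ok ar he'0 (min_le_left _ _)
      ((lintegral_mono_set (ball_subset_ball (by linarith))).trans h4) (np _ e' ok ar
        (Nop.energy ok (le_max_right Λ 0) (Gs.ar_max ar) gb (by linarith)
          (dsb_int ok ar h4 (lt_add_one _))) (fun y hy ρ hρ => ?_) (min_le_right _ _))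
    have b1 := one_le_bt t
    have b2 : Real.log (bt t) ≤ 1 := by
      have : Real.exp (-2 * t) ≤ 1 := Real.exp_le_one_iff.2 (by linarith)
      nlinarith [Real.log_le_sub_one_of_pos (bt_pos t), bt_sq t]
    have l1 : 1 ≤ bt t * Real.exp t := one_le_mul_of_one_le_of_one_le b1
      (Real.one_le_exp (by linarith))
    rw [← e9, nn_rs, gs_zm _ _ (lpos t)]
    refine hσ₀ _ (by linarith) _ ?_ _ ⟨div_pos hρ.1 (lpos t), (div_le_self hρ.1.le l1).trans hρ.2⟩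
    rw [mem_ball_zero_iff] at hy ⊢
    refine (norm_add_le _ _).trans_lt (add_lt_add_of_le_of_lt ?_ (lt_of_le_of_lt ?_ hy)) <;>
      rw [norm_smul, Real.norm_of_nonneg (by positivity)] <;>
      exact mul_le_of_le_one_left (norm_nonneg _) (inv_le_one_of_one_le₀ (by assumption))
  obtain ⟨i₀, hi₀⟩ := eventually_atTop.1 hbad
  choose t ht hj using fun i => hi₀ (i + i₀) (Nat.le_add_left _ _)
  obtain ⟨t', ht', φ, hφ, hlim⟩ := isCompact_Icc.tendsto_subseq ht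
  obtain ⟨h1, h2⟩ := conv (fun k => φ k + i₀) (t ∘ φ) t'
    ((tendsto_add_atTop_nat i₀).comp hφ.tendsto_atTop) hlim
  have h3 : ∀ᶠ k in atTop, ∀ j ∈ Iic J,
      Many (N (φ k + i₀) (t (φ k))) 1 (ε / 2) (1 / 8) (e' / 10 / 2 ^ j) :=
    (eventually_all_finite (finite_Iic J)).2 fun j hj' => hN3 _ _ _ _ _ _
      (zm_ar hκA _ (lpos t')).fin (h1.mono fun k hk => hk.fin) h2
      (hT₀ t' (by linarith [ht'.1, le_max_left T₀ t₁]) j hj')
  obtain ⟨k, hk⟩ := h3.exists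
  obtain ⟨j, hj1, hj2⟩ := hj (φ k)
  exact hj2 (hk j hj1)

end Vale.Agent.P218U
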