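import Vale.Agent.P218U.Huz

/-!
# P218U (port of P218Y): the rows DSW, DSZ, SLZ
-/

open MeasureTheory Metric Filter Topology Set
open scoped ContDiff ENNReal RealInnerProductSpace
open Vale.Agent.P218 (WeakTendsto Slow)
open Vale.Agent.P218.H552 (NN ext weakTendsto_ext exists_drop_le)
open Vale.Agent.P218R Vale.Agent.P218E Vale.Agent.P218Z
open Vale.Agent.P218Y (Yc)
open Vale.Agent.P218Y.Dsw

noncomputable section

namespace Vale.Agent.P218U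

theorem piece {F : Flw} {a b Λ G t₀ c d : ℝ} (x₀ : E3) (hF : Yc F a b Λ G)
    (hcd : c ≤ d) (ha : a < tm t₀ c) (hd : tm t₀ d < b) (hr : ∀ τ ∈ Icc c d, RegT (trk F) (tm t₀ τ)) :
    ∫⁻ τ in Icc c d, dsw (F.rsl x₀ t₀ τ) ≤ ENNReal.ofReal
      (2 * Real.pi * gs (F.rsl x₀ t₀ c).μ 0 1 - 2 * Real.pi * gs (F.rsl x₀ t₀ d).μ 0 1) := by
  obtain ⟨F', c', d', -, q1, q2, -, hF', q3⟩ := (P218Y.top.2.2 F a b Λ G hF).2 _ _ ha (tm_mono t₀ hcd) hd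
    fun t ht => by
      obtain ⟨τ, hτ, rfl⟩ := intermediate_value_Icc hcd (tm_cont t₀).continuousOn ht
      exact hr τ hτ
  have m1 : ∀ τ ∈ Icc c d, tm t₀ τ ∈ Ioo c' d' := fun τ hτ =>
    ⟨q1.trans_le (tm_mono t₀ hτ.1), (tm_mono t₀ hτ.2).trans_lt q2⟩
  have m2 : ∀ τ ∈ Icc c d, tm t₀ τ ∈ Ioo a b := fun τ hτ =>
    ⟨ha.trans_le (tm_mono t₀ hτ.1), (tm_mono t₀ hτ.2).trans_lt hd⟩
  have eG : ∀ τ ∈ Icc c d, (F.rsl x₀ t₀ τ).G = (F'.rsl x₀ t₀ τ).G := fun τ hτ => by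
    rw [rsl_tm, rsl_tm]
    ext y
    exact (Set.ext_iff.1 (q3 _ (m1 τ hτ)).2 (x₀ + (Real.exp τ)⁻¹ • y)).symm
  have eμ : ∀ τ ∈ Icc c d, (F.rsl x₀ t₀ τ).μ = (F'.rsl x₀ t₀ τ).μ := fun τ hτ => by
    rw [Srf.μ, Srf.μ, eG τ hτ]
  obtain ⟨R, hR⟩ := ((hF.cpt _ _ ha hd).image continuous_snd).isBounded.subset_closedBall x₀
  obtain ⟨ψ, f1, -, fc, fb⟩ := exists_continuous_one_zero_of_isCompact
    (isCompact_closedBall (0 : E3) (Real.exp d * R)) isClosed_empty (disjoint_empty _)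
  have hc := ψ.continuous
  have h1 := (hur' F' c' d' Λ t₀ c d x₀ ψ hF' hcd q1 q2 hc fc fb).2
  have h2 := (hur' F' c' d' Λ t₀ c d x₀ (fun x => ψ x * Real.exp (-‖x‖ ^ 2 / 4)) hF' hcd q1 q2
    (by fun_prop) fc.mul_right fun x => ⟨mul_nonneg (fb x).1 (Real.exp_pos _).le,
      mul_le_one₀ (fb x).2 (Real.exp_pos _).le (Real.exp_le_one_iff.2 (by
        linarith [sq_nonneg ‖x‖]))⟩).1
  set g : ℝ → ℝ := fun τ => ∫ x, ψ x * Real.exp (-‖x‖ ^ 2 / 4) * (F'.rsl x₀ t₀ τ).φ x ^ 2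
    ∂(F'.rsl x₀ t₀ τ).μ with hg
  have g0 : ∀ τ, 0 ≤ g τ := fun τ => integral_nonneg fun x => by
    have := (fb x).1
    positivity
  have g1 : ∀ τ ∈ Icc c d, dsw (F.rsl x₀ t₀ τ) = ENNReal.ofReal (g τ) := fun τ hτ => by
    have l0 := Real.exp_pos τ
    refine dsw_eq ind (Λ := Λ) ?_ ?_ (eG τ hτ) ?_ hc fc (fun x => (fb x).1) fun y hy => f1 ?_
    · rw [rsl_tm]; exact (hF.ok _ (m2 τ hτ) (hr τ hτ)).1.sc x₀ l0
    · rw [rsl_tm]; exact (hF'.toOk.sl (m1 τ hτ)).sc x₀ l0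
    · rw [rsl_tm]; exact AR.sc (S := F'.sl _) (hF'.ar _ (m1 τ hτ)) x₀ l0
    · rw [rsl_tm] at hy
      have b1 := hR ⟨(tm t₀ τ, x₀ + (Real.exp τ)⁻¹ • y),
        ⟨⟨tm_mono t₀ hτ.1, tm_mono t₀ hτ.2⟩, hy⟩, rfl⟩
      rw [mem_closedBall_iff_norm, add_sub_cancel_left, norm_smul, norm_inv,
        Real.norm_of_nonneg l0.le] at b1
      have b2 : 0 ≤ R := le_trans (by positivity) b1
      rw [inv_mul_le_iff₀ l0] at b1
      exact mem_closedBall_zero_iff.2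
        (b1.trans (mul_le_mul_of_nonneg_right (Real.exp_le_exp.2 hτ.2) b2))
  rw [intervalIntegral.integral_of_le hcd, ← integral_Icc_eq_integral_Ioc] at h1
  rw [setLIntegral_congr_fun measurableSet_Icc g1, ← ofReal_integral_eq_lintegral_ofReal
    h2.integrableOn_Icc (Eventually.of_forall g0), eμ c (left_mem_Icc.2 hcd),
    eμ d (right_mem_Icc.2 hcd), ← mul_sub]
  refine ENNReal.ofReal_le_ofReal ?_
  rw [← inv_mul_le_iff₀ (by positivity)]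
  linarith

theorem gs_nn (ν : ℝ → Measure E3) (x₀ : E3) (t₀ τ : ℝ) :
    gs (NN 2 ν x₀ t₀ τ) 0 1 = gs (ν (tm t₀ τ)) x₀ √(t₀ - tm t₀ τ) := by
  have e : √(t₀ - tm t₀ τ) = 1 / Real.exp τ := by
    rw [tm, sub_sub_cancel, Real.sqrt_eq_iff_mul_self_eq (Real.exp_pos _).le (by positivity),
      one_div, ← Real.exp_neg, ← Real.exp_add]
    congr 1; ring
  rw [nn_zm, gs_zm _ _ (Real.exp_pos τ), smul_zero, add_zero, e]
  rfl

/-- **DSW** -/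
theorem dsw0 : DSW := by
  intro F ν a b Λ G t₀ τ₁ τ₂ x₀ hF h12 ha hb
  have mo : ∀ σ τ, τ₁ ≤ σ → σ ≤ τ → gs (NN 2 ν x₀ t₀ τ) 0 1 ≤ gs (NN 2 ν x₀ t₀ σ) 0 1 :=
    fun σ τ h1 h2 => by
      rw [gs_nn, gs_nn]
      exact hF.mono _ _ t₀ x₀ (tm_mem ha hb h1).1 (tm_mono t₀ h2) (tm_mem ha hb (h1.trans h2)).2
        (tm_lt t₀ τ)
  have ae : ∀ᵐ τ, τ₁ ≤ τ → RegT (trk F) (tm t₀ τ) :=
    (ae_tm t₀ hF.ae).mono fun τ h h1 => h (tm_mem ha hb h1)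
  refine ⟨mo _ _ le_rfl h12, ae, fun τ h1 => ?_, ?_⟩
  · have l0 := Real.exp_pos τ
    have m := tm_mem ha hb h1
    refine ⟨nn_zm ν x₀ t₀ τ ▸ zm_ar (hF.ar _ m) x₀ l0, fun h => ⟨?_, ?_, nn_eq (hF.eq _ m h)⟩⟩ <;>
      rw [rsl_tm]
    exacts [(hF.ok _ m h).1.sc x₀ l0, (hF.ok _ m h).2.sc x₀ l0]
  · rw [mul_sub]
    refine stj _ (fun τ => 2 * Real.pi * gs (NN 2 ν x₀ t₀ τ) 0 1)
      (tm t₀ ⁻¹' {t | t ∈ Ioo a b ∧ RegT (trk F) t}) τ₁ τ₂ h12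
      ((Tp.open_T hF.cpt).preimage (tm_cont t₀))
      (ae.mono fun τ h h1 => ⟨tm_mem ha hb h1.1, h h1.1⟩)
      (fun σ hσ τ _ h => mul_le_mul_of_nonneg_left (mo σ τ hσ.1 h) (by positivity))
      fun c d h1 h2 _ h4 => ?_
    have c1 := h4 (left_mem_Icc.2 h2)
    have d1 := h4 (right_mem_Icc.2 h2)
    obtain ⟨c', d', q1, q2, hY⟩ := hF.yc c1.1.1 (tm_mono t₀ h2) d1.1.2 fun t ht => by
      obtain ⟨τ, hτ, rfl⟩ := intermediate_value_Icc h2 (tm_cont t₀).continuousOn ht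
      exact (h4 hτ).2
    rw [nn_eq (hF.eq _ c1.1 c1.2), nn_eq (hF.eq _ d1.1 d1.2)]
    exact piece x₀ hY h2 q1 q2 fun τ hτ => (h4 hτ).2

/-- **DSZ** -/
theorem dsz0 : DSZ := by
  intro R
  refine ⟨Real.exp (R ^ 2 / 4) * (2 * Real.pi), by positivity,
    fun F ν a b Λ G t₀ τ₁ τ₂ x₀ hF ha hb h5 h6 => ?_⟩
  obtain ⟨-, h2, -, h4⟩ := dsw0 F ν a b Λ G t₀ τ₁ τ₂ x₀ hF (by linarith) ha hb
  have H : ∫⁻ τ in Icc τ₁ τ₂, dsb (F.rsl x₀ t₀ τ) R ≤ ENNReal.ofReal (Real.exp (R ^ 2 / 4) *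
      (2 * Real.pi) * (gs (NN 2 ν x₀ t₀ τ₁) 0 1 - gs (NN 2 ν x₀ t₀ τ₂) 0 1)) := by
    refine (lintegral_mono fun τ => dsb_le _ R).trans ?_
    rw [lintegral_const_mul' _ _ ENNReal.ofReal_ne_top, mul_assoc,
      ENNReal.ofReal_mul (Real.exp_pos _).le]
    exact mul_le_mul_right h4 _
  by_contra hn
  have h7 : ∫⁻ _ in Icc (τ₂ - 1) τ₂, 1 ≤ ∫⁻ τ in Icc (τ₂ - 1) τ₂, dsb (F.rsl x₀ t₀ τ) R := by
    refine lintegral_mono_ae ((ae_restrict_iff' measurableSet_Icc).2 (h2.mono fun τ h hτ => ?_))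
    by_contra h8
    exact hn ⟨τ, hτ, h (by linarith [hτ.1]), (not_le.1 h8).le⟩
  rw [setLIntegral_one, Real.volume_Icc, sub_sub_cancel, ENNReal.ofReal_one] at h7
  have h9 := h7.trans ((lintegral_mono_set (Icc_subset_Icc_left (by linarith))).trans H)
  exact (ENNReal.ofReal_lt_one.2 h6).not_ge h9

/-- row SLZ -/
theorem slz0 : SLZ := by
  intro F ν a b Λ G τ₀ x₀ τ κ hab h hS lf hτ hκ
  refine ⟨fun s hs => ?_, ?_⟩
  · simp only [rs_ext hs]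
    exact weakTendsto_ext (hS.weakTendsto_shift hτ (h := |Real.log √(-s)| + 1) (by positivity)
      (Eventually.of_forall fun i => by simp) hκ) 2 hs
  obtain ⟨τ₁, h0⟩ := ex_tau0 hab
  have hD := fun c d (hc : τ₁ ≤ c) (hd : c ≤ d) =>
    dsw0 F ν a b Λ G b c d x₀ h hd (adm h0 hc).1 le_rfl
  set θ : ℝ → ℝ := fun c => gs (NN 2 ν x₀ b c) 0 1
  have π0 := Real.pi_pos
  have : ∀ i : ℕ, ∃ s ∈ Icc (τ i) (τ i + 1), τ₁ ≤ τ i → RegS F b s ∧ dsw (F.rsl x₀ b s) ≤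
      ENNReal.ofReal (2 * Real.pi * (θ (τ i) - θ (τ i + 1)) + 1 / ((i : ℝ) + 1)) := fun i => by
    have l : τ i ≤ τ i + 1 := by linarith
    by_cases hi : τ₁ ≤ τ i
    · obtain ⟨h1, h2, -, h3⟩ := hD _ _ hi l
      obtain ⟨s, h4, h5⟩ := P218Y.Slz.pick (mul_nonneg (by positivity) (sub_nonneg.2 h1))
        (Nat.one_div_pos_of_nat (n := i)) h2 h3
      exact ⟨s, h4, fun _ => h5⟩
    · exact ⟨τ i, left_mem_Icc.2 l, fun a => absurd a hi⟩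
  choose σ hσ hd using this
  have ev' : ∀ᶠ i in atTop, (RegS F b (σ i) ∧ (F.rsl x₀ b (σ i)).Ok ∧ AR Λ (F.rsl x₀ b (σ i)).μ ∧
      (F.rsl x₀ b (σ i)).GBd G) ∧ NN 2 ν x₀ b (σ i) = (F.rsl x₀ b (σ i)).μ :=
    (hτ.eventually_ge_atTop τ₁).mono fun i hi => by
      obtain ⟨h1, h2⟩ := (hD _ _ hi le_rfl).2.2.1 _ (hσ i).1
      obtain ⟨h3, h4, h5⟩ := h2 (hd i hi).1
      exact ⟨⟨(hd i hi).1, h3, h5 ▸ h1, h4⟩, h5⟩
  have ev := ev'.mono fun _ h => h.1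
  have wk := hS.weakTendsto_shift hτ (σ := σ) one_pos (Eventually.of_forall fun i =>
    abs_le.2 ⟨by linarith [(hσ i).1], by linarith [(hσ i).2]⟩) hκ
  have ph : ∀ R : ℝ, Tendsto (fun i => ∫ x in closedBall (0 : E3) R, (F.rsl x₀ b (σ i)).φ x ^ 2
      ∂(F.rsl x₀ b (σ i)).μ) atTop (𝓝 0) := fun R => by
    refine tendsto_order.2 ⟨fun c hc => .of_forall fun i => hc.trans_le (by positivity),
      fun c hc => ?_⟩
    set δ := c / (4 * Real.exp (R ^ 2 / 4))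
    have δ0 : 0 < δ := by positivity
    obtain ⟨T, hT, hp⟩ := exists_drop_le (θ := θ) (fun c d hc hd => (hD c d hc hd).1)
      (fun _ => gs_nonneg _ _ _) (δ := δ / (2 * Real.pi)) (by positivity)
    filter_upwards [ev, hτ.eventually_ge_atTop T, (tendsto_one_div_add_atTop_nhds_zero_nat
      (𝕜 := ℝ)).eventually (ge_mem_nhds δ0)] with i h1 h2 h3
    have h4 := hp _ (τ i + 1) h2 (by linarith)
    rw [le_div_iff₀' (by positivity)] at h4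
    refine (P218Y.Slz.ball_le h1.2.1 h1.2.2.1 (D := 2 * δ) (by positivity) ((hd i (hT.trans h2)).2.trans
      (ENNReal.ofReal_le_ofReal (by linarith)))).trans_lt ?_
    rw [show Real.exp (R ^ 2 / 4) * (2 * δ) = c / 2 by simp only [δ]; field_simp; norm_num]
    exact half_lt_self hc
  refine ⟨σ, hσ, ev, ⟨lt_max_of_lt_right one_pos, lf,
    ev.mono fun i hi => ⟨hi.2.1, hi.2.2.1.mono (le_max_left _ _)⟩, fun R => ?_, ph,
    fun f f1 f2 => (wk f f1 f2).congr' (ev'.mono fun i hi => by simp only [hi.2])⟩, wk⟩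
  · have r0 : 0 < max R 1 := lt_max_of_lt_right one_pos
    refine ⟨_, (ev.and ((ph (20 * max R 1)).eventually (ge_mem_nhds one_pos))).mono
      fun i ⟨⟨_, h1, h2, h3⟩, h4⟩ => le_trans ?_ (Nop.energy h1 (le_max_right Λ 0)
        (h2.mono (le_max_left _ _)) h3 r0 h4)⟩
    have := h2.fin
    exact setIntegral_mono_set ((h1.sA2.continuous.continuousOn.integrableOn_compact
      (isCompact_closedBall 0 (max R 1))).mono_set ball_subset_closedBall)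
      ((h1.ae_set _).mono fun x hx => h1.A2_nonneg hx)
      (ball_subset_ball (le_max_left R 1)).eventuallyLE

end Vale.Agent.P218U
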