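import Vale.Agent.P218U.Dsw

/-!
# P218U (port of P218Y): the rows PTZ, WHZ, LOZ, TFY
-/

set_option linter.all false

open MeasureTheory Metric Filter Topology Set
open scoped ContDiff ENNReal RealInnerProductSpace
open Vale.Agent.P366W (trc Fr)
open Vale.Agent.P218 (limitSet WeakTendsto)
open Vale.Agent.P218.H552 (NN ext)
open Vale.Agent.P218R Vale.Agent.P218E Vale.Agent.P218Z

noncomputable section

namespace Vale.Agent.P218U

open P218R.Pt in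
/-- **row PTZ** -/
theorem ptz : PTZ := by
  intro Λ
  obtain ⟨R, hR, hT⟩ := tail gsl Λ
  have hp := Real.pi_pos
  have mass : ∀ (F : Flw) (ν : ℝ → Measure E3) (a b G s t : ℝ) (y : E3), Um F ν a b Λ G →
      a < t → t < s → s < b → F.u (s, y) = 0 →
      2 * Real.pi * (s - t) ≤ (ν t).real (closedBall y (R * √(s - t))) :=
    fun F ν a b G s t y hF h1 h2 h3 h4 => by
      have h5 := hT _ (hF.ar t ⟨h1, h2.trans h3⟩) y _ (Real.sqrt_pos.2 (sub_pos.2 h2))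
        (hF.ld s t y h1 h2 h3 h4)
      rwa [Real.sq_sqrt (sub_pos.2 h2).le] at h5
  refine ⟨R, hR, fun F ν a b G s t y hF h1 h2 h3 h4 => ?_, fun K δ η hδ hη => ?_⟩
  · have h5 := mass F ν a b G s t y hF h1 h2 h3 h4
    have h6 : ν t (closedBall y (R * √(s - t))) ≠ 0 := fun h => by
      rw [Measure.real, h, ENNReal.toReal_zero] at h5
      have := sub_pos.2 h2
      exact absurd h5 (not_le.2 (by positivity))
    obtain ⟨z, h7, h8⟩ := Measure.exists_mem_of_measure_ne_zero_of_ae h6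
      (ae_restrict_of_ae (hF.car t ⟨h1, h2.trans h3⟩))
    exact ⟨z, h8, mem_closedBall_iff_norm.1 h7⟩
  obtain ⟨M, hM⟩ : ∃ M, M = K ^ 2 + 2 * δ ^ 2 := ⟨_, rfl⟩
  have hM0 : 0 < M := by rw [hM]; positivity
  obtain ⟨k, hk⟩ : ∃ k, k = (4 * Real.pi * M)⁻¹ *
    Real.exp (-((K + 2 * R * δ) ^ 2 / (4 * δ ^ 2))) := ⟨_, rfl⟩
  have hk0 : 0 < k := by rw [hk]; positivity
  obtain ⟨c, hc⟩ : ∃ c, c = 2 * Real.pi * δ ^ 2 * (k * (η ^ 2 / (8 * M ^ 2))) := ⟨_, rfl⟩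
  have hc0 : 0 < c := by rw [hc]; positivity
  refine ⟨c * δ ^ 2 / 12, by positivity, ?_⟩
  intro F ν a b G s s' t₀ ρ y₁ y₂ y hF hρ h0 h1 h2 h3 h4 hy₁ hy₂ hy hn₁ hn₂ hg₁ hg₂
  have hd : 0 < (δ * ρ) ^ 2 := by positivity
  have h12 : s' - 2 * (δ * ρ) ^ 2 < s' - (δ * ρ) ^ 2 := by linarith
  have h5 : s' - (δ * ρ) ^ 2 < s := by linarith
  have sm : ∀ z, F.u (s, z) = 0 → gs (ν t₀) z √(s - t₀) ≤ 1 + c * δ ^ 2 / 12 →
      gs (ν (s' - 2 * (δ * ρ) ^ 2)) z √(s - (s' - 2 * (δ * ρ) ^ 2)) -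
        gs (ν (s' - (δ * ρ) ^ 2)) z √(s - (s' - (δ * ρ) ^ 2)) ≤ c * δ ^ 2 / 12 :=
    fun z hz hg => by
      have e1 := hF.mono t₀ _ s z h0 h1 ((h12.trans h5).trans h4) (h12.trans h5)
      have e2 := hF.ld s _ z ((h0.trans_le h1).trans h12) h5 h4 hz
      linarith
  obtain ⟨t, ht, hreg, hd2⟩ := huz F ν a b Λ G _ _ (c * δ ^ 2 / 12) 2 ![(s, y₁), (s, y₂)] hF
    (h0.trans_le h1) h12 (h5.trans h4)
    (Fin.forall_fin_two.2 ⟨⟨h5, sm y₁ hy₁ hg₁⟩, ⟨h5, sm y₂ hy₂ hg₂⟩⟩) (by positivity)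
  refine ⟨t, ht, hreg, ?_⟩
  by_contra hcon
  push Not at hcon
  have ht' : t ∈ Ioo a b := ⟨(h0.trans_le h1).trans ht.1, (ht.2.trans h5).trans h4⟩
  have m1 := mass F ν a b G s' t y hF ht'.1 (by linarith [ht.2]) (h2.trans_lt h4) hy
  rw [hF.eq t ht' hreg] at m1
  have m2 : R * √(s' - t) ≤ 2 * R * δ * ρ := by
    have h6 : √(s' - t) ≤ 2 * (δ * ρ) :=
      Real.sqrt_le_iff.2 ⟨by positivity, by linarith [ht.1]⟩
    linarith [mul_le_mul_of_nonneg_left h6 (zero_le_one.trans hR)]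
  have m3 : 2 * Real.pi * (δ * ρ) ^ 2 ≤ (F.μ t).real (closedBall y (R * √(s' - t))) :=
    le_trans (by gcongr; linarith [ht.2]) m1
  have m4 : s - t ≤ M * ρ ^ 2 := by rw [hM]; linarith [ht.1]
  have m5 := P218Y.Ptz.low (hF.ok t ht' hreg).1 (hF.arF ht' hreg) hρ hδ hη hM0 (by linarith [ht.2]) m4 hn₁
    hn₂ (r := R * √(s' - t)) (N := 2 * R * δ) m2 hcon
  have e : (((2 : ℕ) : ℝ) + 1) * (c * δ ^ 2 / 12) /
      (s' - (δ * ρ) ^ 2 - (s' - 2 * (δ * ρ) ^ 2)) = c / ρ ^ 2 / 4 := by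
    rw [show s' - (δ * ρ) ^ 2 - (s' - 2 * (δ * ρ) ^ 2) = (δ * ρ) ^ 2 by ring]
    field_simp
    norm_num
  rw [e] at hd2
  have q : 0 < c / ρ ^ 2 := by positivity
  have m6 := m5.trans (add_le_add (hd2 0) (hd2 1))
  rw [← hk, ← ENNReal.ofReal_add (by positivity) (by positivity),
    ENNReal.ofReal_le_ofReal_iff (by positivity)] at m6
  have m7 : c / ρ ^ 2 = 2 * Real.pi * (δ * ρ) ^ 2 * (k / ρ ^ 2 * (η ^ 2 / (8 * M ^ 2 * ρ ^ 2))) := by
    rw [hc]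
    field_simp
  have m8 := mul_le_mul_of_nonneg_right m3
    (show 0 ≤ k / ρ ^ 2 * (η ^ 2 / (8 * M ^ 2 * ρ ^ 2)) by positivity)
  linarith

theorem whz : WHZ := fun Λ => by
  obtain ⟨R, R1, anc, two⟩ := ptz Λ
  obtain ⟨K, δ, η, d0, η0, whl⟩ := whl wlz R R1
  obtain ⟨ε₁, e1, two⟩ := two K δ η d0 η0
  refine ⟨ε₁, e1, fun σ s0 => ?_⟩
  obtain ⟨c, c0, c1, C, C0, C1, whl⟩ := whl σ s0
  refine ⟨c, c0, C, C0, C1, fun F ν a b G ε θ t r x hF h1 h2 hr ha hb hd s hs rs y hy y0 => ?_⟩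
  have r2 : 0 < r ^ 2 := by positivity
  have dom : ∀ s ∈ Ioo (t - 3 * r ^ 2) t, s ∈ Ioo a b := fun s h =>
    ⟨by linarith [h.1], h.2.trans_le hb⟩
  have den : ∀ s ∈ Ioo (t - 3 * r ^ 2) t, ∀ y ∈ ball x (2 * (2 * r)),
      gs (ν (t - 4 * r ^ 2)) y √(s - (t - 4 * r ^ 2)) ≤ 1 + θ := fun s h y hy =>
    hd y (by rwa [show 4 * r = 2 * (2 * r) by ring]) _ ⟨Real.le_sqrt_of_sq_le (by linarith [h.1]),
      Real.sqrt_le_iff.2 ⟨by positivity, by linarith [h.2]⟩⟩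
  obtain ⟨F', hF', hz⟩ := orl (trk F) (t - 3 * r ^ 2) t (2 * r) x (by linarith) (by positivity)
    (fun s h y _ => (P218Y.top.2.1 _ a b hF.cpt).2.1 s (dom s h) y) 
    fun s h y hy hm => by_contra fun hn => by
      linarith [hF.gap s _ y ha (by linarith [h.1]) (dom s h).2 ⟨hm, hn⟩, den s h y hy]
  have sub : ball x (2 * r) ⊆ ball x (2 * (2 * r)) := ball_subset_ball (by linarith)
  have hs' : s ∈ Ioo (t - 3 * r ^ 2) t := ⟨by linarith [hs.1], hs.2⟩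
  have hy' : y ∈ ball x (2 * r) := ball_subset_ball (by linarith) hy
  obtain ⟨L, hL, hR⟩ := whl F' t r x hr hF' (fun s s' y h3 h4 h5 h6 h7 => by
      have m : s ∈ Ioo (t - 3 * r ^ 2) t := ⟨h3.trans h4, h5⟩
      have m' : s' ∈ Ioo (t - 3 * r ^ 2) t := ⟨h3, h4.trans h5⟩
      obtain ⟨z, z0, z1⟩ := anc F ν a b G s s' y hF.toUm (dom _ m').1 h4 (dom _ m).2
        ((hz s m y (h7 (mem_closedBall_self (by positivity)))).1 h6)
      exact ⟨z, (hz s' m' z (h7 (mem_closedBall_iff_norm.2 z1))).2 z0, z1⟩)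
    (fun s s' ρ y₁ y₂ y ρ0 h3 h4 h5 h6 u1 u2 u3 n1 n2 b1 b2 b3 => by
      have q : 0 < (δ * ρ) ^ 2 := by positivity
      have m : s ∈ Ioo (t - 3 * r ^ 2) t := ⟨by linarith, h6⟩
      have m' : s' ∈ Ioo (t - 3 * r ^ 2) t := ⟨by linarith, h4.trans_lt h6⟩
      obtain ⟨t', t1, t2, z, z0, z1, z2⟩ := two F ν a b G s s' (t - 4 * r ^ 2) ρ y₁ y₂ y hF.toUm ρ0 ha
        (by linarith) h4 h5 (dom _ m).2 ((hz s m _ b1).1 u1) ((hz s m _ b2).1 u2)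
        ((hz s' m' _ (b3 (mem_closedBall_self (by positivity)))).1 u3) n1 n2
        ((den s m _ (sub b1)).trans (by linarith)) ((den s m _ (sub b2)).trans (by linarith))
      have m2 : t' ∈ Ioo (t - 3 * r ^ 2) t := ⟨by linarith [t1.1], by linarith [t1.2]⟩
      have zb := b3 (mem_closedBall_iff_norm.2 z1)
      refine ⟨t', t1, z, (hz t' m2 z zb).2 z0, z1, ?_⟩
      rcases (hF.ok t' (dom _ m2) t2).1.same_n (x := z) z0 (hF'.toPre.sl m2)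
        ((isOpen_ball.eventually_mem zb).mono fun w hw => (hz t' m2 w hw).symm) with e | e
      · exact (show F'.n (t', z) = F.n (t', z) from e) ▸ z2
      · rw [show F'.n (t', z) = -F.n (t', z) from e, inner_neg_right, abs_neg]
        exact z2)
    s hs y hy ((hz s hs' y hy').2 y0)
  have cr : 0 < c * r := by positivity
  exact ⟨L, (ind _ _ (hF'.toPre.sl hs') (hF.ok s (dom s hs') rs).1).2 y L (c * r) C cr
    ((hz s hs' y hy').2 y0) (fun z hz' => hz s hs' z (by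
      rw [mem_ball] at *
      nlinarith [dist_triangle z y x])) hL (hR s ⟨by nlinarith, le_rfl⟩)⟩

open P218R.Loc in
theorem loz_step {F : Flw} {ν : ℝ → Measure E3} {a Λ G K η ρ l r t : ℝ} {p z : E3}
    (K0 : 0 ≤ K)
    (g1 : ∀ x' ρ', l * ρ ≤ 2 * ρ' → ρ' ≤ 2 * (l * ρ) → ‖x' - l • p‖ ≤ l * ρ →
      |gs (ν (-(1 + ρ ^ 2))) x' ρ' - gs (ν (-(1 + ρ ^ 2))) (l • p) (l * ρ)| ≤
        K * (‖x' - l • p‖ + |ρ' - l * ρ|) / (l * ρ)) (ok : Um F ν a 0 Λ G) (i1 : a < -(1 + ρ ^ 2))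
    (h0 : 0 < η) (h1 : η ≤ 1 / 2) (r0 : 0 < ρ) (r2 : ρ * (2 * (‖p‖ + 1)) < η) (l1 : 1 ≤ l)
    (l2 : l ≤ 1 + ρ ^ 2) (hr : 2 * r = η * ρ / 10) (hz : z ∈ ball p (4 * r)) (t1 : r ≤ t)
    (t2 : t ≤ 2 * r) : gs (ν (-1 + r ^ 2 / 2 - 4 * r ^ 2)) z t ≤
      gs (ν (-(1 + ρ ^ 2))) (l • p) (l * ρ) + K * η := by
  have r3 : 0 < r := by nlinarith [mul_pos h0 r0]
  have r4 : 40 * r ≤ ρ := by nlinarith
  have a1 := ok.mono (-(1 + ρ ^ 2)) (-1 + r ^ 2 / 2 - 4 * r ^ 2)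
    (-1 + r ^ 2 / 2 - 4 * r ^ 2 + t ^ 2) z i1 (by nlinarith) (by nlinarith) (by nlinarith)
  simp only [add_sub_cancel_left, Real.sqrt_sq (r3.le.trans t1)] at a1
  obtain ⟨q, hq⟩ : ∃ q, q = √(-1 + r ^ 2 / 2 - 4 * r ^ 2 + t ^ 2 - -(1 + ρ ^ 2)) := ⟨_, rfl⟩
  have a2 : ‖z - l • p‖ ≤ 2 * (2 * r) + ρ ^ 2 * ‖p‖ := by
    rw [show z - l • p = z - p - (l - 1) • p by module]
    refine (norm_sub_le _ _).trans (add_le_add
      ((mem_ball_iff_norm.1 hz).le.trans_eq (by ring)) ?_)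
    rw [norm_smul, Real.norm_of_nonneg (by linarith)]
    gcongr
    linarith
  obtain ⟨a4, a5, a6, a7⟩ := arith h0 h1 r0 (norm_nonneg p) r2 l1 l2 hr
    (hq ▸ Real.le_sqrt_of_sq_le (by nlinarith) : ρ - 2 * r ≤ q)
    (hq ▸ Real.sqrt_le_iff.2 ⟨by positivity, by nlinarith⟩) a2
  have a8 : K * (‖z - l • p‖ + |q - l * ρ|) / (l * ρ) ≤ K * η := by
    rw [div_le_iff₀ (by positivity), mul_assoc]
    gcongr
  rw [← hq] at a1
  linarith [(abs_le.1 (g1 z q a5 a6 a7)).2]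

open P218R.Loc in
theorem loz0 : LOZ := fun Λ ε₀ h₀ => by
  obtain ⟨ε₁, e1, wh⟩ := whz Λ
  obtain ⟨ε, e0, e2, e3⟩ : ∃ ε, 0 < ε ∧ ε ≤ ε₁ ∧ ε < ε₀ :=
    ⟨min ε₁ (ε₀ / 2), by positivity, min_le_left _ _, (min_le_right _ _).trans_lt (by linarith)⟩
  refine ⟨ε / 3, by positivity, fun σ s0 => ?_⟩
  obtain ⟨c, c0, C, c1, c2, wh⟩ := wh σ s0
  refine ⟨C, c1, c2, fun F ν a b G τ₀ x₀ p τ κ hab hF hsl hκ hτ hw hd => ?_⟩
  obtain ⟨⟨K, K0, g1⟩, g2⟩ := gsl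
  have L0 := le_max_right Λ 0
  obtain ⟨η, h0, h1, h2⟩ : ∃ η, 0 < η ∧ η ≤ 1 / 2 ∧ K * max Λ 0 * η ≤ ε / 3 :=
    ⟨min (1 / 2) (ε / 3 / (K * max Λ 0 + 1)), by positivity, min_le_left _ _, by
      have := (le_div_iff₀' (by positivity)).1 (min_le_right (1 / 2) (ε / 3 / (K * max Λ 0 + 1)))
      have : 0 < min (1 / 2) (ε / 3 / (K * max Λ 0 + 1)) := by positivity
      linarith⟩
  obtain ⟨ρ, r1, r0, r2⟩ := (hd.and_eventually
    (Ioo_mem_nhdsGT (show 0 < η / (2 * (‖p‖ + 1)) by positivity))).exists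
  rw [lt_div_iff₀ (by positivity)] at r2
  have n0 := norm_nonneg p
  have s1 : -(1 + ρ ^ 2) < 0 := by nlinarith
  have ok := fun i => (rsz F ν a b b _ Λ G x₀ (Real.exp_pos (τ i))).2 ε₀ hF
  have l1 : 1 ≤ √(-(-(1 + ρ ^ 2))) := Real.one_le_sqrt.2 (by nlinarith)
  have l2 : √(-(-(1 + ρ ^ 2))) ≤ 1 + ρ ^ 2 := Real.sqrt_le_iff.2 ⟨by positivity, by nlinarith⟩
  have lim := (g2 ℕ atTop Λ _ _ (P218.H552.locFin_ext 2 κ s1) ((early hτ hab s1).mono fun i hi =>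
    (ok i).ar _ hi) ((slz0 F ν a b Λ G τ₀ x₀ τ κ hab hF.toUm hsl hκ hτ hw).1 _ s1)).2
      (√(-(-(1 + ρ ^ 2))) • p) (√(-(-(1 + ρ ^ 2))) * ρ) (by positivity)
  rw [gs_ext κ s1] at lim
  generalize √(-(-(1 + ρ ^ 2))) = l at l1 l2 lim
  obtain ⟨r, hr⟩ : ∃ r, 2 * r = η * ρ / 10 := ⟨η * ρ / 20, by ring⟩
  have r3 : 0 < r := by nlinarith [mul_pos h0 r0]
  have r4 : 40 * r ≤ ρ := by nlinarith
  have r5 : ρ ≤ 1 := by nlinarith
  refine ⟨r, r3, c * r, by positivity, ?_⟩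
  filter_upwards [early hτ hab s1, lim.eventually_lt_const (show _ < 1 + 2 * (ε / 3) by linarith)]
    with i ⟨i1, _⟩ i3 hreg y hy hy'
  refine wh _ _ _ _ G ε₀ ε (-1 + r ^ 2 / 2) r p (ok i) e2 e3 r3 (by nlinarith)
    (by rw [sub_self, mul_zero]; nlinarith) (fun z hz t ⟨t1, t2⟩ => ?_) (-1)
    ⟨by nlinarith, by nlinarith⟩
    ((P218Z.Rsz.regT (M := trk F) (Real.exp_pos (τ i))).2 (by rwa [rs_time])) y hy hy'
  simp only [sub_self, mul_zero] at ok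
  linarith [loz_step (mul_nonneg K0.le L0) (g1 _ _ L0 (((ok i).ar _ ⟨i1, s1⟩).mono
    (le_max_left _ _)) (l • p) (l * ρ) (by positivity)).2.2 (ok i).toUm i1 h0 h1 r0 r2 l1 l2 hr
    hz t1 t2]

open P218R.Loc in
theorem tfy0 : TFY := by
  rintro F ν a b Λ G ε₀ τ₀ x₀ κ hab h0 hF hsl ⟨hκ, τ, hτ, hw⟩ den
  obtain ⟨σ, h1, ok', hG, hw'⟩ := (slz0 F ν a b Λ G τ₀ x₀ τ κ hab hF.toUm hsl hκ hτ hw).2
  have h2 := hG.wk
  have h3 := hG.ph
  have hσ : Tendsto σ atTop atTop := tendsto_atTop_mono (fun i => (h1 i).1) hτ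
  have ok := ok'.mono fun i hi => hi.2
  obtain ⟨ε, e0, lo⟩ := loz0 Λ ε₀ h0
  obtain ⟨C, c0, c1, lo⟩ := lo (1 / 10) (by norm_num)
  obtain ⟨T, hT, rfl, cv⟩ := lim' ℕ atTop (fun i => F.rsl x₀ b (σ i)) κ hκ (ok.mono fun _ h => h.1)
    (fun p => by
      obtain ⟨δ, d0, r, r0, h⟩ := lo F ν a b G τ₀ x₀ p σ κ hab hF hsl hκ hσ hw' (den p ε e0)
      exact ⟨δ, d0, r, r0, C, c0, c1, (h.and ok').mono fun i hi => hi.1 hi.2.1⟩) h2
  have ct' := P366W.continuous_trc (N := 3)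
  refine ⟨T, ⟨hT, fun p hp => by_contra fun hne => ?_,
    (gsl.2 ℕ atTop Λ _ _ hκ (ok.mono fun _ h => h.2.1) h2).1, fun y r r0 => ?_⟩, rfl⟩
  · have hK := isCompact_closedBall (0 : E3) (‖p‖ + 2)
    have o : ∀ x ∉ closedBall 0 (‖p‖ + 2), ct 1 p 1 0 x = 0 := fun x hx => ct_out le_rfl x
      (mt (fun h => closedBall_subset_closedBall' (by rw [dist_zero_right]; linarith) h) hx)
    have c2 := hT.sφ.continuous.pow 2
    have n0 : ∀ x, 0 ≤ ct 1 p 1 0 x * T.φ x ^ 2 := fun x => mul_nonneg ct_mem.1 (sq_nonneg _)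
    have z := (integral_eq_zero_iff_of_nonneg n0 (int_cut c2 hK ct_cont o)).1 (le_antisymm
      (le_of_tendsto_of_tendsto (cv (fun q => ct 1 p 1 0 q.1 * (trc q.2.2 - ⟪q.1, q.2.1⟫ / 2) ^ 2)
        _ ((ct_cont.comp continuous_fst).mul (by fun_prop)) hK (fun x hx q => by simp [o x hx])
        fun x n A => by simp only [trc_neg, inner_neg_right]; ring) (h3 (‖p‖ + 2))
        (ok.mono fun i h => have := h.2.1.fin; cut_le (h.1.sφ.continuous.pow 2)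
          (.of_forall fun _ => sq_nonneg _) hK hK.measurableSet le_rfl ct_cont (fun _ => ct_mem.2) o))
      (integral_nonneg n0))
    obtain ⟨δ, d0, hδ⟩ := Metric.eventually_nhds_iff_ball.1
      (((ct_cont (c := 1) (y := p) (R := 1) (n := 0)).mul c2).continuousAt.eventually_ne
        (show ct 1 p 1 0 p * T.φ p ^ 2 ≠ 0 by simp [ct_in, hne]))
    obtain ⟨r, r1, r2, r3⟩ := (((low' T hT).2 p hp 1 (by linarith [Real.pi_gt_three])).and
      (Ioo_mem_nhdsGT d0)).exists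
    rw [measure_mono_null (fun x hx => hδ x (ball_subset_ball r3.le hx)) z] at r1
    exact absurd r1 (not_le.2 (ENNReal.ofReal_pos.2 (by positivity)))
  · obtain ⟨i, hi⟩ := ok.exists
    have G0 := hi.2.2.nonneg hi.1
    have k1 := isCompact_closedBall y (r + 1)
    have k2 := isCompact_closedBall y (20 * r + 1)
    refine le_of_tendsto_of_tendsto' (cut_lim hT.sA2.continuous k1 measurableSet_ball
      (fun _ => ct_cont) (fun _ _ => ct_mem) (fun _ => ct_out zero_le_one) ct_ball)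
      (((cut_lim (hT.sH.continuous.pow 2) k2 measurableSet_closedBall (fun _ => ct_cont)
        (fun _ _ => ct_mem) (fun _ => ct_out le_rfl) ct_cball).const_add 1).const_mul G) fun n => ?_
    refine le_of_tendsto_of_tendsto (cv (fun q => ct 0 y r n q.1 * trc (q.2.2 ∘L q.2.2)) _
      ((ct_cont.comp continuous_fst).mul (by fun_prop)) k1
      (fun x hx q => by simp [ct_out zero_le_one x hx]) fun x n A => by simp)
      (((cv (fun q => ct 1 y (20 * r) n q.1 * trc q.2.2 ^ 2) _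
      ((ct_cont.comp continuous_fst).mul (by fun_prop)) k2
      (fun x hx q => by simp [ct_out le_rfl x hx]) fun x n A => by simp [trc_neg]).const_add
        1).const_mul G) (ok.mono fun i h => ?_)
    have := h.2.1.fin
    exact (cut_le h.1.sA2.continuous (h.1.ae.mono fun x => h.1.A2_nonneg) k1 measurableSet_ball
      (ball_subset_closedBall.trans (closedBall_subset_closedBall (by linarith))) ct_cont
      (fun _ => ct_mem.2) ct_off).trans ((h.2.2 y r r0).trans (mul_le_mul_of_nonneg_left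
        (add_le_add_right (le_cut (h.1.sH.continuous.pow 2) (fun _ => sq_nonneg _) k2
          measurableSet_closedBall (closedBall_subset_closedBall (by linarith)) ct_cont
          (fun _ => ct_mem.1) ct_in (ct_out le_rfl)) 1) G0))

end Vale.Agent.P218U
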