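import Vale.Agent.P218U.Pnu
import Vale.Agent.P218U.Dny
import Vale.Agent.P218U.Rows
import Vale.Agent.P218Y.All

/-!
# P218U: uniqueness of tangent flows for almost regular flows
-/

open MeasureTheory Set
open Vale.Agent.P218 (IsIntegralBrakkeFlow TangentFlowUnique)
open Vale.Agent.P218R

namespace Vale.Agent.P218U

theorem fin5 {μ : ℝ → Measure E3} {x₀ : E3} {t₀ a : ℝ} {M : ℝ → Set E3} (hS : P218T.TStar)
    (hB : IsIntegralBrakkeFlow 2 μ) (h0 : μ 0 univ < ⊤) (ht : 0 < t₀) (ha : a < t₀)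
    (hM : P218V.IsAlm2 μ M a t₀) : TangentFlowUnique 2 μ x₀ t₀ :=
  finU (lcs P218Y.spn0 slz0) (dny P218Y.np0 P218Y.dps rsz dsw0 dsz0 slz0) tfy0 hS hB h0 ht ha hM

end Vale.Agent.P218U
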