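import Vale.Agent.P218V.Gap
import Vale.Agent.P218U.Defs

/-!
# P218U: the row GAP
-/

open MeasureTheory Metric Filter Topology Set
open scoped RealInnerProductSpace ENNReal NNReal
open Vale.Agent.P218.H552
open Vale.Agent.P218R Vale.Agent.P218E
open Vale.Agent.P218Z

noncomputable section

namespace Vale.Agent.P218U

open Fl in
/-- **GAP** -/
theorem gap0 : GAP := fun Λ => by
  obtain ⟨ε, ε0, h⟩ := P218V.flat2 (le_max_right Λ 0)
  refine ⟨ε, ε0, fun ν F a b G s t x T H hB h0 ha hZ h1 h2 h3 hx hg => ?_⟩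
  have mono := hZ.mono
  have eq : ∀ᵐ r, r ∈ Ioo a b → ν r = H2.restrict (trk F r) :=
    hZ.ae.mono fun r k hr => hZ.eq r hr (k hr)
  have hW : Wf ν (trk F) a b (max Λ 0) := by
    refine ⟨le_max_right _ _, fun r hr => Gs.ar_max (hZ.ar r hr), hZ.car,
      fun t₀ s R β v y z a1 a2 a3 hy a4 a5 a6 a7 => ?_, hZ.ld⟩
    have := mv (θ := 1) (e := v) hB h0 (ha.trans a1.le) a2 a4 a5 a6
      (fun r hr => (hZ.car r ⟨a1.trans_le hr.1, hr.2.trans a3⟩).mono (a7 r hr)) zero_le_one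
      (Eventually.frequently (by
        filter_upwards [Ioo_mem_nhdsLT (a1.trans a2)] with r hr
        exact hZ.ld s r y hr.1 hr.2 a3 hy))
    rwa [one_mul] at this
  have c1 : ContinuousAt (fun p : ℝ × E3 => gs (ν s) p.2 √(p.1 - s)) (t, x) :=
    ContinuousAt.comp (g := fun p : E3 × ℝ => gs (ν s) p.1 p.2)
      (f := fun p : ℝ × E3 => (p.2, √(p.1 - s))) (Fl.gs_cont2 hW.pos
        (hW.ar s ⟨h1, h2.trans h3⟩) x (Real.sqrt_pos.2 (sub_pos.2 h2))) (by fun_prop)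
  obtain ⟨δ, δ0, hδ⟩ := nhds_basis_closedBall.eventually_iff.1
    ((c1.eventually_lt_const hg).and ((continuous_fst.tendsto _).eventually_const_lt h2))
  obtain ⟨ρ, ρ0, ρ1, ρ2⟩ : ∃ ρ > (0 : ℝ), ρ ≤ δ ∧ ρ ≤ 1 :=
    ⟨min δ 1, by positivity, min_le_left _ _, min_le_right _ _⟩
  have ρ3 : ρ ^ 2 ≤ δ := by nlinarith
  have k : ∀ r y, t - ρ ^ 2 ≤ r → r ≤ t + ρ ^ 2 → ‖y - x‖ ≤ ρ →
      gs (ν s) y √(r - s) < 1 + ε ∧ s < r := fun r y a1 a2 a3 => hδ (x := (r, y)) (by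
    rw [mem_closedBall, Prod.dist_eq, max_le_iff, Real.dist_eq, abs_le, dist_eq_norm]
    exact ⟨⟨by linarith, by linarith⟩, a3.trans ρ1⟩)
  have k0 := (k (t - ρ ^ 2) x le_rfl (by nlinarith) (by simpa using ρ0.le)).2
  exact h ν (trk F) a b t ρ x hW eq (fun s₁ s₂ a1 a2 a3 => mono s₁ s₂ t x a1 a2 (a3.trans h3) a3) ρ0
    (h1.trans k0) h3 hx fun r r' y a1 a2 a3 a4 a5 =>
      (mono s r' r y h1 (k0.le.trans a1) (a3.trans h3) a2).trans
        (k r y (a1.trans a2.le) a4 a5).1.le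

end Vale.Agent.P218U
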