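import Vale.Agent.P218U.Defs
import Vale.Agent.P218Y.Port

/-!
# P218U (port of P218Y): the rows RSZ, HUZ, DSW, DSZ
-/

open MeasureTheory Metric Filter Topology Set
open scoped ContDiff ENNReal RealInnerProductSpace
open Vale.Agent.P218 (rescaled)
open Vale.Agent.P218.H552 (NN)
open Vale.Agent.P218R Vale.Agent.P218E Vale.Agent.P218Z

noncomputable section

namespace Vale.Agent.P218U

variable {F : Flw} {ν : ℝ → Measure E3} {x₀ y : E3} {t₀ l s a b Λ G : ℝ}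

open P218Z.Rsz in
theorem rs_um (hl : 0 < l) (h : Um F ν a b Λ G) : Um (F.rs x₀ t₀ l) (rescaled 2 ν x₀ t₀ l)
    (l ^ 2 * (a - t₀)) (l ^ 2 * (b - t₀)) Λ G := by
  have l2 := pow_pos hl 2
  refine ⟨⟨fun c d hc hd => ?_, ?_, fun s hs hr => ?_,
    fun s hs => zm_ar (h.ar _ ((rs_mem hl).1 hs)) x₀ hl, fun s hs hr => ?_, fun s hs => ?_⟩,
    fun s₁ s₂ t x h1 h2 h3 h4 => ?_, fun s t y h1 h2 h3 h4 => ?_⟩
  · convert (((Homeomorph.mulRight₀ _ (inv_ne_zero l2.ne')).trans (Homeomorph.addLeft t₀)).prodCongr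
      (scE x₀ hl).symm).isCompact_preimage.2 (h.cpt _ _ (lo hl hc) (hi hl hd)) using 1
    exact Set.ext fun p => and_congr (and_congr (le hl).symm (le hl).symm) Iff.rfl
  · have q : Measure.QuasiMeasurePreserving (fun s : ℝ => t₀ + s / l ^ 2) volume volume :=
      (measurePreserving_add_left volume t₀).quasiMeasurePreserving.comp
        ⟨by fun_prop, by
          simp only [div_eq_mul_inv]
          rw [Real.map_volume_mul_right (inv_ne_zero l2.ne')]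
          exact Measure.smul_absolutelyContinuous⟩
    exact (q.ae h.ae).mono fun s h1 hs => (regT hl).2 (h1 ((rs_mem hl).1 hs))
  · have := h.ok _ ((rs_mem hl).1 hs) ((regT hl).1 hr)
    exact ⟨this.1.sc x₀ hl, this.2.sc x₀ hl⟩
  · rw [rs_mu _ _ _ hl, rescaled, rescaled, h.eq _ ((rs_mem hl).1 hs) ((regT hl).1 hr)]
  · have := h.car _ ((rs_mem hl).1 hs)
    rw [ae_iff] at this ⊢
    rw [show rescaled 2 ν x₀ t₀ l s = zm (ν (t₀ + s / l ^ 2)) x₀ l from rfl, zm_apply _ _ hl]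
    refine mul_eq_zero_of_right _ (measure_mono_null (fun x hx => ?_) this)
    refine fun hx' => hx ?_
    show F.u (t₀ + s / l ^ 2, x₀ + l⁻¹ • l • (x - x₀)) = 0
    rwa [inv_smul_smul₀ hl.ne', add_sub_cancel]
  · rw [P218U.gs_rs hl, P218U.gs_rs hl]
    exact h.mono _ _ _ _ (lo hl h1) ((le hl).2 h2) (hi hl h3) (lt hl h4)
  · rw [P218U.gs_rs hl]
    exact h.ld _ _ _ (lo hl h1) (lt hl h2) (hi hl h3) h4

theorem rsz : RSZ := fun F _ _ _ _ _ _ _ _ hl =>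
  ⟨rs_um hl, fun _ h => ⟨rs_um hl h.toUm, fun s t y h1 h2 h3 h4 => by
    rw [gs_rs hl]
    exact h.gap _ _ _ (P218Z.Rsz.lo hl h1) (P218Z.Rsz.lt hl h2) (P218Z.Rsz.hi hl h3)
      (P218Z.Rsz.sing (M := trk F) hl h4)⟩⟩

theorem one (hF : Um F ν a b Λ G) {s₁ s₂ t₀ : ℝ} (x₀ : E3)
    (h1 : a < s₁) (h2 : s₁ ≤ s₂) (h3 : s₂ < b) (h4 : s₂ < t₀) :
    ∫⁻ t in Icc s₁ s₂, dsh F x₀ t₀ t ≤
      ENNReal.ofReal (gs (ν s₁) x₀ √(t₀ - s₁) - gs (ν s₂) x₀ √(t₀ - s₂)) := by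
  refine stj (dsh F x₀ t₀) (fun t => gs (ν t) x₀ √(t₀ - t)) {t | t ∈ Ioo a b ∧ RegT (trk F) t}
    s₁ s₂ h2 (Tp.open_T hF.cpt) (hF.ae.mono fun t h ht => ?_) (fun s hs t ht h => ?_)
    fun c d e1 e2 e3 e4 => ?_
  · have : t ∈ Ioo a b := ⟨h1.trans_le ht.1, ht.2.trans_lt h3⟩
    exact ⟨this, h this⟩
  · exact hF.mono s t t₀ x₀ (h1.trans_le hs.1) h (ht.2.trans_lt h3) (ht.2.trans_lt h4)
  · obtain ⟨c', d', q1, q2, hY⟩ := hF.yc (h1.trans_le e1) e2 (e3.trans_lt h3)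
      fun t ht => (e4 ht).2
    obtain ⟨g, g1, g2, g3⟩ := P218Y.Huz.loc P218Y.top ind hY x₀ q1 e2 q2
      (e3.trans_lt h4) fun t ht => (e4 ht).2
    have k := fun t ht => hF.eq t (e4 ht).1 (e4 ht).2
    rw [setLIntegral_congr_fun measurableSet_Icc fun t ht => (g2 t ht).2,
      ← ofReal_integral_eq_lintegral_ofReal g1.integrableOn_Icc
        ((ae_restrict_mem measurableSet_Icc).mono fun t ht => (g2 t ht).1),
      integral_Icc_eq_integral_Ioc, ← intervalIntegral.integral_of_le e2]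
    simp only [k c ⟨le_rfl, e2⟩, k d ⟨e2, le_rfl⟩]
    exact ENNReal.ofReal_le_ofReal g3

/-- **HUZ** -/
theorem huz : HUZ := by
  intro F ν a b Λ G s₁ s₂ D n p hF h1 h2 h3 hp hD
  by_contra! H
  set V := Ioo s₁ s₂ ∩ {t | t ∈ Ioo a b ∧ RegT (trk F) t} with hV
  have hO : IsOpen V := isOpen_Ioo.inter (Tp.open_T hF.cpt)
  have hl := sub_pos.2 h2
  have v1 : volume V = ENNReal.ofReal (s₂ - s₁) := by
    rw [← Real.volume_Ioo]
    refine measure_congr (hF.ae.mono fun t h => ?_)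
    refine propext ⟨fun k => k.1, fun k => ⟨k, ?_⟩⟩
    have : t ∈ Ioo a b := ⟨h1.trans k.1, k.2.trans h3⟩
    exact ⟨this, h this⟩
  have m : ∀ j, AEMeasurable (dsh F (p j).2 (p j).1) (volume.restrict V) := fun j =>
    ContinuousOn.aemeasurable (fun t ht => by
      obtain ⟨c', d', q1, q2, hY⟩ := hF.yc ht.2.1.1 le_rfl ht.2.1.2
        fun s hs => le_antisymm hs.1 hs.2 ▸ ht.2.2
      exact (P218Y.Huz.cont P218Y.top ind hY _ ⟨q1, q2⟩ ht.2.2
        (ht.1.2.trans (hp j).1)).continuousWithinAt) hO.measurableSet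
  have b1 : ∀ j, ∫⁻ t in V, dsh F (p j).2 (p j).1 t ≤ ENNReal.ofReal D := fun j =>
    ((lintegral_mono_set (inter_subset_left.trans Ioo_subset_Icc_self)).trans
      (one hF _ h1 h2.le h3 (hp j).1)).trans (ENNReal.ofReal_le_ofReal (hp j).2)
  have b2 : ∫⁻ _ in V, ENNReal.ofReal ((n + 1) * D / (s₂ - s₁)) ≤
      ∫⁻ t in V, ∑ j, dsh F (p j).2 (p j).1 t := by
    refine setLIntegral_mono' hO.measurableSet fun t ht => ?_
    obtain ⟨j, hj⟩ := H t ht.1 ht.2.2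
    exact hj.le.trans (Finset.single_le_sum (f := fun j => dsh F (p j).2 (p j).1 t)
      (fun _ _ => zero_le) (Finset.mem_univ j))
  rw [lintegral_finsetSum' _ fun j _ => m j, setLIntegral_const, v1,
    ← ENNReal.ofReal_mul (by positivity), div_mul_cancel₀ _ hl.ne'] at b2
  have b3 := b2.trans (Finset.sum_le_sum fun j _ => b1 j)
  rw [Finset.sum_const, Finset.card_univ, Fintype.card_fin, nsmul_eq_mul, ← ENNReal.ofReal_natCast,
    ← ENNReal.ofReal_mul (by positivity), ENNReal.ofReal_le_ofReal_iff (by positivity)] at b3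
  linarith

end Vale.Agent.P218U
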