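import Vale.Agent.P218Z.Rsz
import Vale.Agent.P218U.Defs
import Vale.Agent.P218E.All

/-!
# P218U (port of P218Y): White's theorem for the rescaled slices
-/

open MeasureTheory Metric Filter Topology Set
open scoped ContDiff ENNReal RealInnerProductSpace
open Vale.Agent.P366W (trc Fr)
open Vale.Agent.P218 (limitSet WeakTendsto)
open Vale.Agent.P218.H552 (NN ext)
open Vale.Agent.P218R Vale.Agent.P218E Vale.Agent.P218R.Loc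
open Vale.Agent.P218Z

noncomputable section

namespace Vale.Agent.P218U

theorem loz_step {F : Flw} {ν : ℝ → Measure E3} {a Λ G K η ρ l r t : ℝ} {p z : E3} (K0 : 0 ≤ K)
    (g1 : ∀ x' ρ', l * ρ ≤ 2 * ρ' → ρ' ≤ 2 * (l * ρ) → ‖x' - l • p‖ ≤ l * ρ →
      |gs (ν (-(1 + ρ ^ 2))) x' ρ' - gs (ν (-(1 + ρ ^ 2))) (l • p) (l * ρ)| ≤
        K * (‖x' - l • p‖ + |ρ' - l * ρ|) / (l * ρ)) (ok : Um F ν a 0 Λ G) (i1 : a < -(1 + ρ ^ 2))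
    (h0 : 0 < η) (h1 : η ≤ 1 / 2) (r0 : 0 < ρ) (r2 : ρ * (2 * (‖p‖ + 1)) < η) (l1 : 1 ≤ l)
    (l2 : l ≤ 1 + ρ ^ 2) (hr : 2 * r = η * ρ / 10) (hz : z ∈ ball p (4 * r)) (t1 : r ≤ t)
    (t2 : t ≤ 2 * r) : gs (ν (-1 + r ^ 2 / 2 - 4 * r ^ 2)) z t ≤
      gs (ν (-(1 + ρ ^ 2))) (l • p) (l * ρ) + K * η := by
  have r3 : 0 < r := by nlinarith [mul_pos h0 r0]
  have r4 : 40 * r ≤ ρ := by nlinarith
  have a1 := ok.mono (-(1 + ρ ^ 2)) (-1 + r ^ 2 / 2 - 4 * r ^ 2)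
    (-1 + r ^ 2 / 2 - 4 * r ^ 2 + t ^ 2) z i1 (by nlinarith) (by nlinarith) (by nlinarith)
  simp only [add_sub_cancel_left, Real.sqrt_sq (r3.le.trans t1)] at a1
  obtain ⟨q, hq⟩ : ∃ q, q = √(-1 + r ^ 2 / 2 - 4 * r ^ 2 + t ^ 2 - -(1 + ρ ^ 2)) := ⟨_, rfl⟩
  have a2 : ‖z - l • p‖ ≤ 2 * (2 * r) + ρ ^ 2 * ‖p‖ := by
    rw [show z - l • p = z - p - (l - 1) • p by module]
    refine (norm_sub_le _ _).trans (add_le_add
      ((mem_ball_iff_norm.1 hz).le.trans_eq (by ring)) ?_)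
    rw [norm_smul, Real.norm_of_nonneg (by linarith)]
    gcongr
    linarith
  obtain ⟨a4, a5, a6, a7⟩ := arith h0 h1 r0 (norm_nonneg p) r2 l1 l2 hr
    (hq ▸ Real.le_sqrt_of_sq_le (by nlinarith) : ρ - 2 * r ≤ q)
    (hq ▸ Real.sqrt_le_iff.2 ⟨by positivity, by nlinarith⟩) a2
  have a8 : K * (‖z - l • p‖ + |q - l * ρ|) / (l * ρ) ≤ K * η := by
    rw [div_le_iff₀ (by positivity), mul_assoc]
    gcongr
  rw [← hq] at a1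
  linarith [(abs_le.1 (g1 z q a5 a6 a7)).2]

theorem loz (hR : RSZ) (hS : SLZ) (wh : WHZ) : LOZ := fun Λ ε₀ h₀ => by
  obtain ⟨ε₁, e1, wh⟩ := wh Λ
  obtain ⟨ε, e0, e2, e3⟩ : ∃ ε, 0 < ε ∧ ε ≤ ε₁ ∧ ε < ε₀ :=
    ⟨min ε₁ (ε₀ / 2), by positivity, min_le_left _ _, (min_le_right _ _).trans_lt (by linarith)⟩
  refine ⟨ε / 3, by positivity, fun σ s0 => ?_⟩
  obtain ⟨c, c0, C, c1, c2, wh⟩ := wh σ s0
  refine ⟨C, c1, c2, fun F ν a b G τ₀ x₀ p τ κ hab hF hsl hκ hτ hw hd => ?_⟩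
  obtain ⟨⟨K, K0, g1⟩, g2⟩ := gsl
  have L0 := le_max_right Λ 0
  obtain ⟨η, h0, h1, h2⟩ : ∃ η, 0 < η ∧ η ≤ 1 / 2 ∧ K * max Λ 0 * η ≤ ε / 3 :=
    ⟨min (1 / 2) (ε / 3 / (K * max Λ 0 + 1)), by positivity, min_le_left _ _, by
      have := (le_div_iff₀' (by positivity)).1 (min_le_right (1 / 2) (ε / 3 / (K * max Λ 0 + 1)))
      have : 0 < min (1 / 2) (ε / 3 / (K * max Λ 0 + 1)) := by positivity
      linarith⟩
  obtain ⟨ρ, r1, r0, r2⟩ := (hd.and_eventually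
    (Ioo_mem_nhdsGT (show 0 < η / (2 * (‖p‖ + 1)) by positivity))).exists
  rw [lt_div_iff₀ (by positivity)] at r2
  have n0 := norm_nonneg p
  have s1 : -(1 + ρ ^ 2) < 0 := by nlinarith
  have ok := fun i => (hR F ν a b b _ Λ G x₀ (Real.exp_pos (τ i))).2 ε₀ hF
  have l1 : 1 ≤ √(-(-(1 + ρ ^ 2))) := Real.one_le_sqrt.2 (by nlinarith)
  have l2 : √(-(-(1 + ρ ^ 2))) ≤ 1 + ρ ^ 2 := Real.sqrt_le_iff.2 ⟨by positivity, by nlinarith⟩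
  have lim := (g2 ℕ atTop Λ _ _ (P218.H552.locFin_ext 2 κ s1) ((early hτ hab s1).mono fun i hi =>
    (ok i).ar _ hi) ((hS F ν a b Λ G τ₀ x₀ τ κ hab hF.toUm hsl hκ hτ hw).1 _ s1)).2
      (√(-(-(1 + ρ ^ 2))) • p) (√(-(-(1 + ρ ^ 2))) * ρ) (by positivity)
  rw [gs_ext κ s1] at lim
  generalize √(-(-(1 + ρ ^ 2))) = l at l1 l2 lim
  obtain ⟨r, hr⟩ : ∃ r, 2 * r = η * ρ / 10 := ⟨η * ρ / 20, by ring⟩
  have r3 : 0 < r := by nlinarith [mul_pos h0 r0]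
  have r4 : 40 * r ≤ ρ := by nlinarith
  have r5 : ρ ≤ 1 := by nlinarith
  refine ⟨r, r3, c * r, by positivity, ?_⟩
  filter_upwards [early hτ hab s1, lim.eventually_lt_const (show _ < 1 + 2 * (ε / 3) by linarith)]
    with i ⟨i1, _⟩ i3 hreg y hy hy'
  refine wh _ _ _ _ G ε₀ ε (-1 + r ^ 2 / 2) r p (ok i) e2 e3 r3 (by nlinarith)
    (by rw [sub_self, mul_zero]; nlinarith) (fun z hz t ⟨t1, t2⟩ => ?_) (-1)
    ⟨by nlinarith, by nlinarith⟩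
    ((P218Z.Rsz.regT (M := trk F) (Real.exp_pos (τ i))).2 (by rwa [rs_time])) y hy hy'
  simp only [sub_self, mul_zero] at ok
  linarith [loz_step (mul_nonneg K0.le L0) (g1 _ _ L0 (((ok i).ar _ ⟨i1, s1⟩).mono
    (le_max_left _ _)) (l • p) (l * ρ) (by positivity)).2.2 (ok i).toUm i1 h0 h1 r0 r2 l1 l2 hr
    hz t1 t2]

end Vale.Agent.P218U
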