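import Vale.Agent.P218U.Blw
import Vale.Agent.P218U.Gap
import Vale.Agent.P218V.Eq
import Vale.Agent.P218Y.Cov
import Vale.Agent.P218Y.Din

/-!
# P218U: the singular set is small; uniqueness
-/

open MeasureTheory Metric Filter Topology Set
open scoped ContDiff ENNReal RealInnerProductSpace NNReal
open Vale.Agent.P218 (limitSet WeakTendsto Slow IsIntegralBrakkeFlow TangentFlowUnique)
open Vale.Agent.P218.H552
open Vale.Agent.P218R Vale.Agent.P218E Vale.Agent.P218Z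
open Vale.Agent.P218Y (Lin cov din)
open Vale.Agent.P218V (IsAlm2 eq_all)

noncomputable section

namespace Vale.Agent.P218U

theorem pnu (lcs : LCS) (dny : DNY) (tfy : TFY) {F : Flw} {ν : ℝ → Measure E3} {a b Λ G ε₀ : ℝ}
    (h0 : 0 < ε₀) (hF : Uf F ν a b Λ G ε₀) (sl : ∀ t ∈ Ioo a b, ∀ x, ∃ τ₀, Slow (NN 2 ν x t) τ₀)
    (he : ∀ u t, a ≤ u → t ≤ b → PNull (Sing (trk F) ∩ Ioo u t ×ˢ univ) →
      ∀ s ∈ Ioo u t, F.μ s = ν s) : PNull (Sing (trk F) ∩ Ioo a b ×ˢ univ) := by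
  obtain ⟨-, t2, ⟨C, t3⟩, -⟩ := thb hF.toUm
  have lin : ∀ η > (0 : ℝ), ∃ δ > (0 : ℝ), ∀ p ∈ Sing (trk F), p.1 ∈ Ioo a b → Gd ν Λ G p →
      Lin (Th ν a) η δ p := fun η hη => by
    obtain ⟨δ, d0, h⟩ := lcs Λ G ε₀ η h0 hη
    refine ⟨δ, d0, fun p hp ht hg => ?_⟩
    obtain ⟨τ₀, hs⟩ := sl p.1 ht p.2
    exact h F ν a b τ₀ p hF ht hp hs hg
  have pn : ∀ u t, a ≤ u → t ≤ b → (∀ p ∈ Sing (trk F), p.1 ∈ Ioo u t → Gd ν Λ G p) →
      PNull (Sing (trk F) ∩ Ioo u t ×ˢ univ) := fun u t hu ht h => cov _ (Th ν a) fun η hη => by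
    obtain ⟨δ, d0, h'⟩ := lin η hη
    exact ⟨δ, d0, fun p hp => h' p hp.1 (Ioo_subset_Ioo hu ht hp.2.1) (h p hp.1 hp.2.1)⟩
  obtain ⟨δ, d0, hδ⟩ := lin (1 / 2) one_half_pos
  refine pn a b le_rfl le_rfl (din _ _ (Th ν a) a b δ C d0 (fun c d => Tp.sing_cpt hF.cpt)
    (hF.ae.mono fun t h ht x hx => hx.2 (h ht x hx.1))
    (fun p hp => ⟨(t3 p hp).2, fun c hc => (t2 p hp c hc).2⟩) (fun p _ ht h2 κ hκ => ?_) hδ
    fun u t hu hut ht h x κ ⟨hκ, τ, hτ, hw⟩ => ?_)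
  · obtain ⟨τ₀, hs⟩ := sl p.1 ht p.2
    have hY := hF.mono' le_rfl ht.2.le
    refine tfy F ν a p.1 Λ G ε₀ τ₀ p.2 κ ht.1 h0 hY hs hκ
      (dny F ν a p.1 Λ G τ₀ p.2 κ hY.toUm hs hκ ?_)
    obtain ⟨s, h1, h2⟩ := ((t2 p ht 2 h2).1.and (Ioo_mem_nhdsLT ht.1)).exists
    exact ⟨s, h2, h1⟩
  · obtain ⟨τ₀, hs⟩ := sl t ⟨hu.trans hut, ht⟩ x
    have hY := hF.mono' hu.le ht.le
    have N := pn u t hu.le ht.le h
    have e := he u t hu.le ht.le N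
    have ev := Slc.nn_smul (c := 1) hut (fun s hs => (e s hs).trans (one_smul _ _).symm) x
    obtain ⟨τ₁, h1⟩ := eventually_atTop.1 ev
    refine tfz' F u t Λ G ε₀ (max τ₀ τ₁) x κ hut h0 ⟨⟨⟨hY.cpt, fun c d hc hd δ =>
      Tp.cover hY.cpt N hc hd, hY.ok, fun s hs => e s hs ▸ hY.ar s hs⟩,
      fun s₁ s₂ t₀ y a1 a2 a3 a4 => ?_, fun s r y a1 a2 a3 a4 => ?_⟩, fun s r y a1 a2 a3 a4 => ?_⟩
      (Slc.slow_smul hs 1 (le_max_left _ _) fun σ hσ => h1 σ ((le_max_right _ _).trans hσ))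
      ⟨hκ, τ, hτ, fun f f1 f2 => (hw f f1 f2).congr' ((hτ.eventually ev).mono fun i hi => ?_)⟩
    · rw [e _ ⟨a1, a2.trans_lt a3⟩, e _ ⟨a1.trans_le a2, a3⟩]
      exact hY.mono _ _ _ _ a1 a2 a3 a4
    · rw [e _ ⟨a1, a2.trans a3⟩]
      exact hY.ld _ _ _ a1 a2 a3 a4
    · rw [e _ ⟨a1, a2.trans a3⟩]
      exact hY.gap _ _ _ a1 a2 a3 a4
    · simp only [hi, one_smul]

theorem finU (lcs : LCS) (dny : DNY) (tfy : TFY) {μ : ℝ → Measure E3} {M : ℝ → Set E3}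
    {x₀ : E3} {a b : ℝ} (hS : P218T.TStar) (hB : IsIntegralBrakkeFlow 2 μ) (h0 : μ 0 univ < ⊤)
    (b0 : 0 < b) (hab : a < b) (hM : IsAlm2 μ M a b) : TangentFlowUnique 2 μ x₀ b := by
  obtain ⟨c, c0, ac, cb⟩ : ∃ c, 0 < c ∧ a < c ∧ c < b := by
    obtain ⟨c, h1, h2⟩ := exists_between (max_lt hab b0)
    exact ⟨c, (le_max_right _ _).trans_lt h1, (le_max_left _ _).trans_lt h1, h2⟩
  have sub : Ioo c b ⊆ Ioo a b := Ioo_subset_Ioo_left ac.le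
  obtain ⟨F, hF, ok⟩ := slc M
  obtain rfl : trk F = M := funext hF
  obtain ⟨k, -, hk⟩ := exists_cH
  obtain ⟨T, H, hB'⟩ := exists_BF hB
  replace hB' := BF.smul hB' k
  have h0' : (k • μ 0) univ < ⊤ := by
    rw [Measure.smul_apply]
    exact ENNReal.mul_lt_top ENNReal.coe_lt_top h0
  have e : ∀ t, μ t = (μH[2] : Measure E3).restrict (trk F t) → F.μ t = k • μ t := fun t h => by
    rw [h, ← Measure.restrict_smul, ← hk]
    rfl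
  have ar := fun t (ht : t ∈ Ioo c b) => Slc.ar_B hB h0 c0 ht.1.le
  generalize 2 * (μ 0).real univ / c = Λ at ar
  have ar' := fun t ht => Slc.ar_smul (ar t ht) k
  obtain ⟨g, hg⟩ := hM.genus
  obtain ⟨G, hG⟩ := gbz chi' (k * Λ) g
  obtain ⟨cp, -⟩ := P218Z.top.2.1 _ a b hM.cpt
  have eq := fun t ht rt => e t (hM.eq t (sub ht) rt)
  have hc : Uc F (fun t => k • μ t) c b (k * Λ) G := ⟨fun c' d h1 => hM.cpt c' d (ac.trans h1),
    hM.ae.mono fun t h ht => h (sub ht), fun t ht rt =>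
      have o := ok t (cp t (sub ht)).isClosed rt
      ⟨o, hG _ o (cp t (sub ht)) (show AR _ (F.μ t) from eq t ht rt ▸ ar' t ht)
        (hg t (sub ht) rt _ o rfl)⟩, ar', fun t ht rt => (eq t ht rt).symm,
    fun t ht => Measure.ae_smul_measure (hM.car t (sub ht)) k⟩
  have mono := fun s₁ s₂ t₀ x (h1 : c < s₁) h2 (_ : s₂ < b) h4 =>
    gs_mono (s₁ := s₁) (s₂ := s₂) (t₀ := t₀) hB' h0' (c0.trans h1).le h2 h4 x
  have hm : Um F (fun t => k • μ t) c b (k * Λ) G := ⟨hc, mono, fun s t y h1 h2 h3 hy => by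
    have := hB'.finite h0' (c0.trans h1).le
    refine ld_cl h2 ((mem_closure_iff_frequently.1 (hM.dense s (sub ⟨h1.trans h2, h3⟩) y hy)).mono
      fun q hq h4 => ?_)
    have m : q.1 ∈ Ioo c b := ⟨h1.trans h4, hq.2.1.2⟩
    have := hB'.finite h0' (c0.trans m.1).le
    exact ld_reg (κ := k • μ q.1) h4 (fun t₀ h5 => mono t q.1 t₀ _ h1 h4.le m.2 h5)
      (cp _ (sub m)).measurableSet (eq _ m hq.2.2).le hq.1 (hq.2.2 _ hq.1)⟩
  obtain ⟨ε, e0, gap⟩ := gap0 (k * Λ)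
  have hf : Uf F (fun t => k • μ t) c b (k * Λ) G ε := ⟨hm, fun s t y h1 h2 h3 h4 =>
    not_lt.1 fun h5 => h4.2 (hM.unit k hk s (sub ⟨h1.trans h2, h3⟩) y h4.1
      (gap _ F c b G t s y T H hB' h0' c0.le hm h1 h2 h3 h4.1 h5))⟩
  have he := fun u t (hu : c ≤ u) (ht : t ≤ b) N s (hs : s ∈ Ioo u t) =>
    eq_all hM N hs (sub (Ioo_subset_Ioo hu ht hs)) (ar s (Ioo_subset_Ioo hu ht hs))
  have N := pnu lcs dny tfy e0 hf (fun t ht x => ⟨_, slow_NN hB' h0' x (c0.trans ht.1)⟩)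
    fun u t hu ht N s hs => e s (he u t hu ht N s hs)
  have hμ := he c b le_rfl le_rfl N
  refine fin3 hS hB h0 b0 cb ⟨hc.cpt, fun t ht x hx => closure_mono
    (fun q hq => by exact ⟨hq.1, hq.2.2 _ hq.1⟩) (hM.dense t (sub ht) x hx), N, fun t ht x hx h =>
      hM.unit k hk t (sub ht) x hx (h.congr' ?_), g, fun t ht => hg t (sub ht)⟩ hμ
  filter_upwards [Ioo_mem_nhdsGT (Real.sqrt_pos.2 (sub_pos.2 ht.1))] with r hr
  rw [← e _ (hμ _ ⟨by linarith [(Real.lt_sqrt hr.1.le).1 hr.2], by nlinarith [ht.2, hr.1]⟩)]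
  rfl

end Vale.Agent.P218U
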