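import Vale.Agent.P218U.Defs
import Vale.Agent.P218E.All

/-!
# P218U (port of P218Y): tangent flows are smooth
-/

open MeasureTheory Metric Filter Topology Set
open scoped ContDiff ENNReal RealInnerProductSpace
open Vale.Agent.P366W (trc Fr)
open Vale.Agent.P218 (limitSet WeakTendsto)
open Vale.Agent.P218.H552 (NN ext)
open Vale.Agent.P218R Vale.Agent.P218E Vale.Agent.P218R.Loc
open Vale.Agent.P218Z

noncomputable section

namespace Vale.Agent.P218U

theorem tfy (lo : LOZ) (slw : SLZ) : TFY := by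
  rintro F ν a b Λ G ε₀ τ₀ x₀ κ hab h0 hF hsl ⟨hκ, τ, hτ, hw⟩ den
  obtain ⟨σ, h1, ok', hG, h4⟩ := (slw F ν a b Λ G τ₀ x₀ τ κ hab hF.toUm hsl hκ hτ hw).2
  have h2 := hG.wk
  have h3 := hG.ph
  have hσ : Tendsto σ atTop atTop := tendsto_atTop_mono (fun i => (h1 i).1) hτ
  have ok := ok'.mono fun i hi => hi.2
  obtain ⟨ε, e0, lo⟩ := lo Λ ε₀ h0
  obtain ⟨C, c0, c1, lo⟩ := lo (1 / 10) (by norm_num)
  obtain ⟨T, hT, rfl, cv⟩ := lim' ℕ atTop (fun i => F.rsl x₀ b (σ i)) κ hκ (ok.mono fun _ h => h.1)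
    (fun p => by
      obtain ⟨δ, d0, r, r0, h⟩ := lo F ν a b G τ₀ x₀ p σ κ hab hF hsl hκ hσ h4
        (den p ε e0)
      exact ⟨δ, d0, r, r0, C, c0, c1, (h.and ok').mono fun i hi => hi.1 hi.2.1⟩) h2
  have ct' := P366W.continuous_trc (N := 3)
  refine ⟨T, ⟨hT, fun p hp => by_contra fun hne => ?_,
    (gsl.2 ℕ atTop Λ _ _ hκ (ok.mono fun _ h => h.2.1) h2).1, fun y r r0 => ?_⟩, rfl⟩
  · have hK := isCompact_closedBall (0 : E3) (‖p‖ + 2)
    have o : ∀ x ∉ closedBall 0 (‖p‖ + 2), ct 1 p 1 0 x = 0 := fun x hx => ct_out le_rfl x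
      (mt (fun h => closedBall_subset_closedBall' (by rw [dist_zero_right]; linarith) h) hx)
    have c2 := hT.sφ.continuous.pow 2
    have n0 : ∀ x, 0 ≤ ct 1 p 1 0 x * T.φ x ^ 2 := fun x => mul_nonneg ct_mem.1 (sq_nonneg _)
    have z := (integral_eq_zero_iff_of_nonneg n0 (int_cut c2 hK ct_cont o)).1 (le_antisymm
      (le_of_tendsto_of_tendsto (cv (fun q => ct 1 p 1 0 q.1 * (trc q.2.2 - ⟪q.1, q.2.1⟫ / 2) ^ 2)
        _ ((ct_cont.comp continuous_fst).mul (by fun_prop)) hK (fun x hx q => by simp [o x hx])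
        fun x n A => by simp only [trc_neg, inner_neg_right]; ring) (h3 (‖p‖ + 2))
        (ok.mono fun i h => have := h.2.1.fin; cut_le (h.1.sφ.continuous.pow 2)
          (.of_forall fun _ => sq_nonneg _) hK hK.measurableSet le_rfl ct_cont (fun _ => ct_mem.2) o))
      (integral_nonneg n0))
    obtain ⟨δ, d0, hδ⟩ := Metric.eventually_nhds_iff_ball.1
      (((ct_cont (c := 1) (y := p) (R := 1) (n := 0)).mul c2).continuousAt.eventually_ne
        (show ct 1 p 1 0 p * T.φ p ^ 2 ≠ 0 by simp [ct_in, hne]))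
    obtain ⟨r, r1, r2, r3⟩ := (((low' T hT).2 p hp 1 (by linarith [Real.pi_gt_three])).and
      (Ioo_mem_nhdsGT d0)).exists
    rw [measure_mono_null (fun x hx => hδ x (ball_subset_ball r3.le hx)) z] at r1
    exact absurd r1 (not_le.2 (ENNReal.ofReal_pos.2 (by positivity)))
  · obtain ⟨i, hi⟩ := ok.exists
    have G0 := hi.2.2.nonneg hi.1
    have k1 := isCompact_closedBall y (r + 1)
    have k2 := isCompact_closedBall y (20 * r + 1)
    refine le_of_tendsto_of_tendsto' (cut_lim hT.sA2.continuous k1 measurableSet_ball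
      (fun _ => ct_cont) (fun _ _ => ct_mem) (fun _ => ct_out zero_le_one) ct_ball)
      (((cut_lim (hT.sH.continuous.pow 2) k2 measurableSet_closedBall (fun _ => ct_cont)
        (fun _ _ => ct_mem) (fun _ => ct_out le_rfl) ct_cball).const_add 1).const_mul G) fun n => ?_
    refine le_of_tendsto_of_tendsto (cv (fun q => ct 0 y r n q.1 * trc (q.2.2 ∘L q.2.2)) _
      ((ct_cont.comp continuous_fst).mul (by fun_prop)) k1
      (fun x hx q => by simp [ct_out zero_le_one x hx]) fun x n A => by simp)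
      (((cv (fun q => ct 1 y (20 * r) n q.1 * trc q.2.2 ^ 2) _
      ((ct_cont.comp continuous_fst).mul (by fun_prop)) k2
      (fun x hx q => by simp [ct_out le_rfl x hx]) fun x n A => by simp [trc_neg]).const_add
        1).const_mul G) (ok.mono fun i h => ?_)
    have := h.2.1.fin
    exact (cut_le h.1.sA2.continuous (h.1.ae.mono fun x => h.1.A2_nonneg) k1 measurableSet_ball
      (ball_subset_closedBall.trans (closedBall_subset_closedBall (by linarith))) ct_cont
      (fun _ => ct_mem.2) ct_off).trans ((h.2.2 y r r0).trans (mul_le_mul_of_nonneg_left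
        (add_le_add_right (le_cut (h.1.sH.continuous.pow 2) (fun _ => sq_nonneg _) k2
          measurableSet_closedBall (closedBall_subset_closedBall (by linarith)) ct_cont
          (fun _ => ct_mem.1) ct_in (ct_out le_rfl)) 1) G0))

end Vale.Agent.P218U
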